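import Vale.Agent.P211.Global.Smoothing.Linear

/-!
# P211, module B: smoothing in one chart of the partition of unity
-/

open Matrix MeasureTheory Metric Function
open scoped ContDiff Topology Manifold

namespace Vale.Agent.P211.Global

open Mollify (Cc Cs dv conv ker)

noncomputable section

set_option linter.unusedSectionVars false

theorem dv_mul {A : Fin 4 → Fin 4 → Euc4 → ℝ} (hA : ∀ i j, Cs (A i j)) {χ w : Euc4 → ℝ}
    (hχ : Cs χ) (hw : Cs w) (y : Euc4) :
    dv A (fun z => χ z * w z) y = w y * dv A χ y + χ y * dv A w y +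
      ∑ i, ∑ j, A i j y * (pd χ j y * pd w i y + pd χ i y * pd w j y) := by
  simp only [dv, Finset.mul_sum, ← Finset.sum_add_distrib]
  refine Finset.sum_congr rfl fun i _ => Finset.sum_congr rfl fun j _ => ?_
  have d0 := (hA i j).differentiable y
  have d1 := (hχ.pd j).differentiable y
  have d2 := (hw.pd j).differentiable y
  have d3 := hχ.differentiable y
  have d4 := hw.differentiable y
  rw [show (fun z => A i j z * pd (fun u => χ u * w u) j z) =
      fun z => A i j z * pd χ j z * w z + χ z * (A i j z * pd w j z) from funext fun z => by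
    rw [Local.pd_mul (hχ.differentiable z) (hw.differentiable z)]; ring,
    Local.pd_add ((d0.fun_mul d1).fun_mul d4) (d3.fun_mul (d0.fun_mul d2)),
    Local.pd_mul (d0.fun_mul d1) d4, Local.pd_mul d3 (d0.fun_mul d2)]
  ring

theorem abs_quad_le (N : Fin 4 → Fin 4 → ℝ) (v : Fin 4 → ℝ) {M : ℝ}
    (hN : ∀ i j, |N i j| ≤ M) : ∑ i, v i * ∑ j, N i j * v j ≤ 4 * M * ∑ i, v i ^ 2 := by
  have hM : 0 ≤ M := (abs_nonneg _).trans (hN 0 0)
  calc ∑ i, v i * ∑ j, N i j * v j = ∑ i, ∑ j, v i * (N i j * v j) := by simp [Finset.mul_sum]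
    _ ≤ ∑ i, ∑ j, M * ((v i ^ 2 + v j ^ 2) / 2) := by
        refine Finset.sum_le_sum fun i _ => Finset.sum_le_sum fun j _ => (le_abs_self _).trans ?_
        rw [abs_mul, abs_mul]
        have h1 := hN i j
        have h2 : |v i| * |v j| ≤ (v i ^ 2 + v j ^ 2) / 2 := by
          nlinarith [sq_nonneg (|v i| - |v j|), sq_abs (v i), sq_abs (v j)]
        nlinarith [mul_nonneg (abs_nonneg (v i)) (abs_nonneg (v j)), abs_nonneg (N i j)]
    _ = _ := by simp only [Fin.sum_univ_four]; ring

variable {X : Type*} [TopologicalSpace X] [ChartedSpace Euc4 X]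
  [IsManifold (𝓘(ℝ, Euc4)) ∞ X] [T2Space X] [CompactSpace X] [MeasurableSpace X] [BorelSpace X]
variable {G : X → Euc4 → M4} (h : IsMetricAtlas G) {p : X}

/-- A test function in a chart is a test function on the manifold. -/
theorem residual_chart {θ : Euc4 → ℝ} (hθ : Cs θ) (hts : tsupport θ ⊆ (chartAt Euc4 p).target)
    {O : Set Euc4} (hO : IsOpen O) (hOT : O ⊆ (chartAt Euc4 p).target)
    (hθ1 : ∀ y ∈ O, θ y = 1) :
    ∃ C, 0 ≤ C ∧ ∀ (u k : X → ℝ) (e : ℝ), Smooth u → Continuous k →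
      (∀ Φ, Smooth Φ → |∫ x, (grad h u x ⬝ᵥ grad h Φ x + k x * Φ x) ∂vol G| ≤
        e * √(∫ x, (Φ x ^ 2 + grad h Φ x ⬝ᵥ grad h Φ x) ∂vol G)) →
      ∀ φ, Cs φ → tsupport φ ⊆ O →
        |∫ y, ((∑ i, ∑ j, coefA G p θ i j y * pd (loc p θ u) j y * pd φ i y) +
            locD G p θ k y * φ y)| ≤
          |e| * C * √(∫ y, (φ y ^ 2 + ∑ i, pd φ i y ^ 2)) := by
  set c := chartAt Euc4 p
  have hK := isCompact_symm_image hθ.2 hts
  obtain ⟨C0, hC0, H0⟩ := integral_le_chart h p hK (symm_image_subset hts)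
  have him : c '' (c.symm '' tsupport θ) = tsupport θ := by
    rw [Set.image_image]
    exact (Set.image_congr fun y hy => c.right_inv (hts hy)).trans (Set.image_id _)
  have hN : ∀ i j, ∃ M, ∀ y ∈ tsupport θ, ‖(G p y)⁻¹ i j‖ ≤ M := fun i j =>
    hθ.2.exists_bound_of_continuousOn
      ((smooth_inv (isMetricOn h p) i j).continuousOn.mono hts)
  choose M hM using hN
  set MM := ∑ i, ∑ j, max (M i j) 0 with hMM
  have hMM0 : 0 ≤ MM := Finset.sum_nonneg fun i _ => Finset.sum_nonneg fun j _ => le_max_right _ _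
  refine ⟨√(C0 * (1 + 4 * MM)), Real.sqrt_nonneg _, fun u k e hu hk hres φ hφ hφO => ?_⟩
  have hφT : tsupport φ ⊆ c.target := hφO.trans hOT
  have hΦ := smooth_push hφ hφT
  set Φ := push p φ
  have hoff : ∀ x, x ∉ c.symm '' tsupport φ → Φ =ᶠ[𝓝 x] 0 := fun x hx => by
    filter_upwards [(isCompact_symm_image hφ.2 hφT).isClosed.isOpen_compl.mem_nhds hx] with z hz
    exact push_eq_zero hφT hz
  have hpd : ∀ y ∈ c.target, ∀ i, pd (rd p Φ) i y = pd φ i y := fun y hy i =>
    Local.pd_congr c.open_target hy (fun z hz => rd_push hz) i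
  have hOθ : ∀ y ∈ O, y ∈ tsupport θ := fun y hy => subset_tsupport θ (by simp [hθ1 y hy])
  have e1 : ∫ x, (grad h u x ⬝ᵥ grad h Φ x + k x * Φ x) ∂vol G =
      ∫ y, ((∑ i, ∑ j, coefA G p θ i j y * pd (loc p θ u) j y * pd φ i y) +
        locD G p θ k y * φ y) := by
    rw [integral_eq_chart h p ((continuous_ip h hu hΦ).fun_add (hk.fun_mul hΦ.continuous))
        (isCompact_symm_image hφ.2 hφT) (symm_image_subset hφT)
        (fun x hx => by
          rw [grad_eq_zero h (hoff x hx), (hoff x hx).eq_of_nhds]; simp),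
      ← setIntegral_eq_integral_of_forall_compl_eq_zero (s := c.target)
        (f := fun y => (∑ i, ∑ j, coefA G p θ i j y * pd (loc p θ u) j y * pd φ i y) +
          locD G p θ k y * φ y) fun y hy => by
        have h0 : y ∉ tsupport φ := fun hm => hy (hφT hm)
        simp [image_eq_zero_of_notMem_tsupport h0, pd, fderiv_of_notMem_tsupport ℝ h0]]
    refine setIntegral_congr_fun c.open_target.measurableSet fun y hy => ?_
    show dens G p y * (rd p (fun x => grad h u x ⬝ᵥ grad h Φ x) y + rd p k y * rd p Φ y) = _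
    have hcomm : rd p (fun x => grad h u x ⬝ᵥ grad h Φ x) y =
        rd p (fun x => grad h Φ x ⬝ᵥ grad h u x) y := dotProduct_comm _ _
    rw [hcomm, rd_ip h p hΦ hu hy, rd_push hy]
    by_cases hm : y ∈ tsupport φ
    · have h1 := hθ1 y (hφO hm)
      have h2 : ∀ j, pd (loc p θ u) j y = pd (rd p u) j y := fun j =>
        Local.pd_congr hO (hφO hm) (fun z hz => by simp [loc, hθ1 z hz]) j
      simp only [coefA, locD, h1, h2, one_mul, dotProduct, mulVec, dvec, hpd y hy, mul_add,
        Finset.mul_sum]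
      congr 1
      · exact Finset.sum_congr rfl fun i _ => Finset.sum_congr rfl fun j _ => by ring
      · ring
    · have hz : ∀ i, pd φ i y = 0 := fun i => by simp [pd, fderiv_of_notMem_tsupport ℝ hm]
      simp [dotProduct, dvec, hpd y hy, hz, image_eq_zero_of_notMem_tsupport hm]
  rw [← e1]
  refine (hres Φ hΦ).trans ((mul_le_mul_of_nonneg_right (le_abs_self e) (Real.sqrt_nonneg _)).trans
    ?_)
  rw [mul_assoc, ← Real.sqrt_mul (by positivity)]
  refine mul_le_mul_of_nonneg_left (Real.sqrt_le_sqrt ?_) (abs_nonneg e)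
  refine (H0 (fun x => Φ x ^ 2 + gsq h Φ x)
    ((hΦ.continuous.pow 2).add (continuous_ip h hΦ hΦ))
    (fun x => add_nonneg (sq_nonneg _) (gsq_nonneg h Φ x)) fun x hx => ?_).trans ?_
  · have hx' : x ∉ c.symm '' tsupport φ := fun hm => hx (by
      obtain ⟨y, hy, rfl⟩ := hm; exact ⟨y, hOθ y (hφO hy), rfl⟩)
    simp [gsq, grad_eq_zero h (hoff x hx'), (hoff x hx').eq_of_nhds]
  rw [him, mul_assoc C0]
  refine mul_le_mul_of_nonneg_left ?_ hC0
  have hi : Integrable fun y => φ y ^ 2 + ∑ i, pd φ i y ^ 2 :=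
    hφ.cc.sq.integrable.add (integrable_finsetSum _ fun i _ => (hφ.pd i).cc.sq.integrable)
  rw [← integral_const_mul]
  refine le_trans (setIntegral_mono_on ?_ (hi.const_mul _).integrableOn
    hθ.2.isCompact.measurableSet fun y hy => ?_)
    (setIntegral_le_integral (hi.const_mul _) (Filter.Eventually.of_forall fun y => by positivity))
  · exact ((continuousOn_rd (F := fun x => Φ x ^ 2 + gsq h Φ x)
      ((hΦ.continuous.pow 2).add (continuous_ip h hΦ hΦ)) p).mono hts).integrableOn_compact hθ.2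
  · show rd p Φ y ^ 2 + rd p (fun x => grad h Φ x ⬝ᵥ grad h Φ x) y ≤ _
    rw [rd_push (hts hy), rd_ip h p hΦ hΦ (hts hy)]
    simp only [dotProduct, mulVec, dvec, hpd y (hts hy)]
    have hb : ∀ i j, |(G p y)⁻¹ i j| ≤ MM := fun i j => (hM i j y hy).trans <|
      (le_max_left _ 0).trans <| (Finset.single_le_sum (f := fun j => max (M i j) 0)
        (fun _ _ => le_max_right _ _) (Finset.mem_univ j)).trans <|
      Finset.single_le_sum (f := fun i => ∑ j, max (M i j) 0)
        (fun i _ => Finset.sum_nonneg fun _ _ => le_max_right _ _) (Finset.mem_univ i)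
    have hs : 0 ≤ ∑ i, pd φ i y ^ 2 := Finset.sum_nonneg fun i _ => sq_nonneg _
    have := abs_quad_le _ (fun i => pd φ i y) hb
    nlinarith [mul_nonneg hMM0 (sq_nonneg (φ y))]

end

end Vale.Agent.P211.Global
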