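import Vale.Agent.P211.Global.Cover
import Vale.Agent.P211.Analytic.Mollify.Main

/-!
# P211, module B: cutoffs in one chart
-/

open Matrix MeasureTheory Metric Function
open scoped ContDiff Topology Manifold

namespace Vale.Agent.P211.Global

open Mollify (Cc Cs)

noncomputable section

theorem exists_cutoff {K T : Set Euc4} (hK : IsCompact K) (hT : IsOpen T) (hKT : K ⊆ T) :
    ∃ θ O, Cs θ ∧ tsupport θ ⊆ T ∧ IsOpen O ∧ K ⊆ O ∧ O ⊆ T ∧ ∀ y ∈ O, θ y = 1 := by
  obtain ⟨δ, hδ, hδT⟩ := hK.exists_cthickening_subset_open hT hKT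
  obtain ⟨f, h1, h0, -⟩ := exists_contMDiffMap_one_nhds_of_subset_interior (n := (⊤ : ℕ∞))
    (𝓘(ℝ, Euc4)) hK.isClosed (t := cthickening δ K)
    ((self_subset_thickening hδ K).trans (interior_maximal (thickening_subset_cthickening δ K)
      isOpen_thickening))
  obtain ⟨O, hO, hKO, hO1⟩ := mem_nhdsSet_iff_exists.1 h1
  have hts : tsupport (fun y => f y) ⊆ cthickening δ K :=
    closure_minimal (fun y hy => by by_contra hh; exact hy (h0 y hh)) isClosed_cthickening
  have hsm : ContDiff ℝ ∞ fun y => f y := contMDiff_iff_contDiff.1 f.contMDiff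
  exact ⟨fun y => f y, O ∩ T, ⟨hsm, hK.cthickening.of_isClosed_subset (isClosed_tsupport _) hts⟩,
    hts.trans hδT, hO.inter hT, Set.subset_inter hKO hKT, Set.inter_subset_right,
    fun y hy => hO1 hy.1⟩

theorem cs_cut {θ F : Euc4 → ℝ} {T : Set Euc4} (hθ : Cs θ) (hT : IsOpen T) (hts : tsupport θ ⊆ T)
    (hF : ContDiffOn ℝ ∞ F T) : Cs fun y => θ y * F y := by
  refine ⟨contDiff_iff_contDiffAt.2 fun y => ?_, hθ.2.mul_right⟩
  by_cases hy : y ∈ T
  · exact hθ.1.contDiffAt.mul (hF.contDiffAt (hT.mem_nhds hy))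
  · refine (contDiffAt_const (c := (0 : ℝ))).congr_of_eventuallyEq ?_
    filter_upwards [notMem_tsupport_iff_eventuallyEq.1 fun h => hy (hts h)] with z hz
    simp [show θ z = 0 from hz]

theorem cc_cut {θ F : Euc4 → ℝ} {T : Set Euc4} (hθ : Cc θ) (hT : IsOpen T) (hts : tsupport θ ⊆ T)
    (hF : ContinuousOn F T) : Cc fun y => θ y * F y := by
  refine ⟨continuous_iff_continuousAt.2 fun y => ?_, hθ.2.mul_right⟩
  by_cases hy : y ∈ T
  · exact hθ.1.continuousAt.mul (hF.continuousAt (hT.mem_nhds hy))
  · refine (continuousAt_const (y := (0 : ℝ))).congr_of_eventuallyEq ?_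
    filter_upwards [notMem_tsupport_iff_eventuallyEq.1 fun h => hy (hts h)] with z hz
    simp [show θ z = 0 from hz]

variable {X : Type*} [TopologicalSpace X] [ChartedSpace Euc4 X]

theorem continuousOn_rd {F : X → ℝ} (hF : Continuous F) (p : X) :
    ContinuousOn (rd p F) (chartAt Euc4 p).target :=
  hF.comp_continuousOn (chartAt Euc4 p).continuousOn_symm

open Classical in
/-- A function on the chart target, extended by zero to the manifold. -/
def push (p : X) (φ : Euc4 → ℝ) (x : X) : ℝ :=
  if x ∈ (chartAt Euc4 p).source then φ (chartAt Euc4 p x) else 0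

theorem rd_push {p : X} {φ : Euc4 → ℝ} {y : Euc4} (hy : y ∈ (chartAt Euc4 p).target) :
    rd p (push p φ) y = φ y := by
  rw [rd, push, if_pos ((chartAt Euc4 p).map_target hy), (chartAt Euc4 p).right_inv hy]

variable {p : X} {φ : Euc4 → ℝ}

theorem push_eq_zero (_hts : tsupport φ ⊆ (chartAt Euc4 p).target) {x : X}
    (hx : x ∉ (chartAt Euc4 p).symm '' tsupport φ) : push p φ x = 0 := by
  unfold push
  split_ifs with hs
  · refine image_eq_zero_of_notMem_tsupport fun hm => hx ⟨_, hm, (chartAt Euc4 p).left_inv hs⟩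
  · rfl

theorem isCompact_symm_image (hc : HasCompactSupport φ)
    (hts : tsupport φ ⊆ (chartAt Euc4 p).target) :
    IsCompact ((chartAt Euc4 p).symm '' tsupport φ) :=
  hc.image_of_continuousOn ((chartAt Euc4 p).continuousOn_symm.mono hts)

theorem symm_image_subset (hts : tsupport φ ⊆ (chartAt Euc4 p).target) :
    (chartAt Euc4 p).symm '' tsupport φ ⊆ (chartAt Euc4 p).source := by
  rintro _ ⟨y, hy, rfl⟩
  exact (chartAt Euc4 p).map_target (hts hy)

variable [T2Space X]

theorem continuous_push (hφ : Cc φ) (hts : tsupport φ ⊆ (chartAt Euc4 p).target) :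
    Continuous (push p φ) := by
  refine continuous_iff_continuousAt.2 fun x => ?_
  by_cases hs : x ∈ (chartAt Euc4 p).source
  · refine (hφ.1.continuousAt.comp ((chartAt Euc4 p).continuousAt hs)).congr ?_
    filter_upwards [(chartAt Euc4 p).open_source.mem_nhds hs] with z hz
    simp [push, hz]
  · refine (continuousAt_const (y := (0 : ℝ))).congr_of_eventuallyEq ?_
    filter_upwards [(isCompact_symm_image hφ.2 hts).isClosed.isOpen_compl.mem_nhds
      fun hm => hs (symm_image_subset hts hm)] with z hz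
    exact push_eq_zero hts hz

theorem smooth_push [IsManifold (𝓘(ℝ, Euc4)) ∞ X] (hφ : Cs φ)
    (hts : tsupport φ ⊆ (chartAt Euc4 p).target) : Smooth (push p φ) := by
  intro q y hy
  refine ContDiffAt.contDiffWithinAt ?_
  by_cases hs : (chartAt Euc4 q).symm y ∈ (chartAt Euc4 p).source
  · have hy' : y ∈ (tr q p).source := ⟨hy, hs⟩
    refine ((hφ.1.comp_contDiffOn (tr_smooth q p)).contDiffAt
      ((tr q p).open_source.mem_nhds hy')).congr_of_eventuallyEq ?_
    filter_upwards [(tr q p).open_source.mem_nhds hy'] with z hz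
    show push p φ ((chartAt Euc4 q).symm z) = φ (tr q p z)
    rw [push, if_pos (show (chartAt Euc4 q).symm z ∈ (chartAt Euc4 p).source from hz.2), tr_apply]
  · refine (contDiffAt_const (c := (0 : ℝ))).congr_of_eventuallyEq ?_
    filter_upwards [((chartAt Euc4 q).isOpen_inter_preimage_symm
      (isCompact_symm_image hφ.2 hts).isClosed.isOpen_compl).mem_nhds
      ⟨hy, fun hm => hs (symm_image_subset hts hm)⟩] with z hz
    exact push_eq_zero hts hz.2

variable [IsManifold (𝓘(ℝ, Euc4)) ∞ X] [CompactSpace X] [MeasurableSpace X] [BorelSpace X]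
variable {G : X → Euc4 → M4} (h : IsMetricAtlas G)
include h

/-- A weighted chart integral is bounded by the integral on the manifold. -/
theorem chart_integral_le (p : X) {w : Euc4 → ℝ} (hw : Cc w)
    (hts : tsupport w ⊆ (chartAt Euc4 p).target) :
    ∃ C, 0 ≤ C ∧ ∀ F : X → ℝ, Continuous F → (∀ x, 0 ≤ F x) →
      ∫ y, w y * rd p F y ≤ C * ∫ x, F x ∂vol G := by
  set T := (chartAt Euc4 p).target
  have hT : IsOpen T := (chartAt Euc4 p).open_target
  have hd : ContinuousOn (fun y => (dens G p y)⁻¹) T :=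
    (smooth_dens h p).continuousOn.inv₀ fun y hy => (dens_pos h hy).ne'
  have hv : Cc fun y => w y * (dens G p y)⁻¹ := cc_cut hw hT hts hd
  have hvs : tsupport (fun y => w y * (dens G p y)⁻¹) ⊆ T := (tsupport_mul_subset_left).trans hts
  obtain ⟨C, hC⟩ := hv.2.exists_bound_of_continuous hv.1
  have hC0 : 0 ≤ C := (norm_nonneg _).trans (hC 0)
  refine ⟨C, hC0, fun F hF hF0 => ?_⟩
  have hP := continuous_push hv hvs
  have e := integral_eq_chart h p (f := fun x => push p (fun y => w y * (dens G p y)⁻¹) x * F x)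
    (hP.mul hF) (isCompact_symm_image hv.2 hvs) (symm_image_subset hvs)
    fun x hx => by rw [push_eq_zero hvs hx, zero_mul]
  have e' : ∫ y, w y * rd p F y = ∫ y in T, dens G p y *
      rd p (fun x => push p (fun y => w y * (dens G p y)⁻¹) x * F x) y := by
    rw [← setIntegral_eq_integral_of_forall_compl_eq_zero (s := T)
      (f := fun y => w y * rd p F y) fun y hy => by
        rw [image_eq_zero_of_notMem_tsupport fun hm => hy (hts hm), zero_mul]]
    refine setIntegral_congr_fun hT.measurableSet fun y hy => ?_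
    show _ = dens G p y * (rd p (push p fun y => w y * (dens G p y)⁻¹) y * rd p F y)
    rw [rd_push hy]
    field_simp [(dens_pos h hy).ne']
  rw [e', ← e, ← integral_const_mul]
  refine integral_mono (integrable_continuous h (hP.mul hF))
    ((integrable_continuous h hF).const_mul C) fun x => mul_le_mul_of_nonneg_right ?_ (hF0 x)
  unfold push
  split_ifs
  · exact (le_abs_self _).trans (hC _)
  · exact hC0

/-- An integral of a function supported in one chart is bounded by the chart integral. -/
theorem integral_le_chart (p : X) {K : Set X} (hK : IsCompact K)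
    (hKs : K ⊆ (chartAt Euc4 p).source) :
    ∃ C, 0 ≤ C ∧ ∀ F : X → ℝ, Continuous F → (∀ x, 0 ≤ F x) → (∀ x, x ∉ K → F x = 0) →
      ∫ x, F x ∂vol G ≤ C * ∫ y in chartAt Euc4 p '' K, rd p F y := by
  set T := (chartAt Euc4 p).target
  set K' := chartAt Euc4 p '' K
  have hK' : IsCompact K' := hK.image_of_continuousOn ((chartAt Euc4 p).continuousOn.mono hKs)
  have hK'T : K' ⊆ T := by rintro _ ⟨x, hx, rfl⟩; exact (chartAt Euc4 p).map_source (hKs hx)
  have hd : ContinuousOn (dens G p) K' := (smooth_dens h p).continuousOn.mono hK'T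
  obtain ⟨C, hC⟩ := hK'.exists_bound_of_continuousOn hd
  refine ⟨max C 0, le_max_right _ _, fun F hF hF0 hz => ?_⟩
  have hc := (continuousOn_rd hF p).mono hK'T
  rw [integral_eq_chart h p hF hK hKs hz,
    setIntegral_eq_of_subset_of_forall_sdiff_eq_zero (chartAt Euc4 p).open_target.measurableSet
      hK'T fun y hy => by
        rw [show rd p F y = 0 from hz _ fun hm => hy.2 ⟨_, hm, (chartAt Euc4 p).right_inv hy.1⟩,
          mul_zero],
    ← integral_const_mul]
  exact setIntegral_mono_on ((hd.mul hc).integrableOn_compact hK')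
    ((hc.integrableOn_compact hK').const_mul _) hK'.measurableSet fun y hy =>
    mul_le_mul_of_nonneg_right ((le_abs_self _).trans ((hC y hy).trans (le_max_left _ _))) (hF0 _)

end

end Vale.Agent.P211.Global
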