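import Vale.Agent.P211.Global.Smoothing.Cut
import Vale.Agent.P211.Global.Calc

/-!
# P211, module B: comparison of chart norms with the norms on the manifold
-/

open Matrix MeasureTheory Metric Function
open scoped ContDiff Topology Manifold

namespace Vale.Agent.P211.Global

open Mollify (Cc Cs dv)

set_option linter.unusedSectionVars false

noncomputable section

variable {X : Type*} [TopologicalSpace X] [ChartedSpace Euc4 X]
  [IsManifold (𝓘(ℝ, Euc4)) ∞ X]

theorem Smooth.continuous {u : X → ℝ} (hu : Smooth u) : Continuous u := by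
  refine continuous_iff_continuousAt.2 fun x => ?_
  have hx := mem_chart_source Euc4 x
  refine (((hu x).continuousOn.continuousAt ((chartAt Euc4 x).open_target.mem_nhds
    ((chartAt Euc4 x).map_source hx))).comp ((chartAt Euc4 x).continuousAt hx)).congr ?_
  filter_upwards [(chartAt Euc4 x).open_source.mem_nhds hx] with z hz
  simp [rd, (chartAt Euc4 x).left_inv hz]

theorem Smooth.mul {u v : X → ℝ} (hu : Smooth u) (hv : Smooth v) : Smooth fun x => u x * v x :=
  fun p => (hu p).mul (hv p)

theorem Smooth.sub {u v : X → ℝ} (hu : Smooth u) (hv : Smooth v) : Smooth fun x => u x - v x :=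
  fun p => (hu p).sub (hv p)

theorem Smooth.sum {ι : Type*} (s : Finset ι) {u : ι → X → ℝ} (hu : ∀ t ∈ s, Smooth (u t)) :
    Smooth fun x => ∑ t ∈ s, u t x :=
  fun p => ContDiffOn.sum fun t ht => hu t ht p

variable {G : X → Euc4 → M4} (h : IsMetricAtlas G)

/-- The squared length of the differential. -/
def gsq (u : X → ℝ) (x : X) : ℝ := grad h u x ⬝ᵥ grad h u x

omit [IsManifold (𝓘(ℝ, Euc4)) ∞ X] in
theorem gsq_nonneg (u : X → ℝ) (x : X) : 0 ≤ gsq h u x := by
  simp only [gsq, dotProduct]
  exact Finset.sum_nonneg fun _ _ => mul_self_nonneg _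

theorem rd_ip (p : X) {u v : X → ℝ} (hu : Smooth u) (hv : Smooth v) {y : Euc4}
    (hy : y ∈ (chartAt Euc4 p).target) :
    rd p (fun x => grad h u x ⬝ᵥ grad h v x) y =
      dvec (rd p u) y ⬝ᵥ (G p y)⁻¹ *ᵥ dvec (rd p v) y := by
  have := grad_dot_grad h ((chartAt Euc4 p).map_target hy) hu hv
  rw [(chartAt Euc4 p).right_inv hy] at this
  exact this

theorem rd_trace_hess (p : X) {u : X → ℝ} (hu : Smooth u) {y : Euc4}
    (hy : y ∈ (chartAt Euc4 p).target) :
    rd p (fun x => (hess h u x).trace) y = Local.lap (G p) (rd p u) y := by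
  have := trace_hess h ((chartAt Euc4 p).map_target hy) hu
  rw [(chartAt Euc4 p).right_inv hy] at this
  exact this

/-- Continuity of a function which is continuous in every chart. -/
theorem continuous_of_rd {F : X → ℝ}
    (hF : ∀ p : X, ContinuousOn (rd p F) (chartAt Euc4 p).target) : Continuous F := by
  refine continuous_iff_continuousAt.2 fun x => ?_
  have hx := mem_chart_source Euc4 x
  refine (((hF x).continuousAt ((chartAt Euc4 x).open_target.mem_nhds
    ((chartAt Euc4 x).map_source hx))).comp ((chartAt Euc4 x).continuousAt hx)).congr ?_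
  filter_upwards [(chartAt Euc4 x).open_source.mem_nhds hx] with z hz
  simp [rd, (chartAt Euc4 x).left_inv hz]

theorem continuous_ip {u v : X → ℝ} (hu : Smooth u) (hv : Smooth v) :
    Continuous fun x => grad h u x ⬝ᵥ grad h v x := by
  refine continuous_of_rd fun p => ?_
  have hG := isMetricOn h p
  refine ContinuousOn.congr ?_ fun y hy => rd_ip h p hu hv hy
  simp only [dotProduct, mulVec, dvec]
  exact continuousOn_finsetSum _ fun i _ => ((Local.pd_smooth (hu p) hG.isOpen i).continuousOn).mul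
    (continuousOn_finsetSum _ fun j _ => ((smooth_inv hG i j).continuousOn).mul
      (Local.pd_smooth (hv p) hG.isOpen j).continuousOn)

theorem continuous_trace_hess {u : X → ℝ} (hu : Smooth u) :
    Continuous fun x => (hess h u x).trace :=
  continuous_of_rd fun p => ((smooth_lap (isMetricOn h p) (hu p)).continuousOn).congr
    fun _ hy => rd_trace_hess h p hu hy

theorem sq_pd_le (p : X) {u : X → ℝ} (hu : Smooth u) {y : Euc4}
    (hy : y ∈ (chartAt Euc4 p).target) (i : Fin 4) :
    pd (rd p u) i y ^ 2 ≤ G p y i i * rd p (gsq h u) y := by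
  set x := (chartAt Euc4 p).symm y
  have hx : x ∈ (chartAt Euc4 p).source := (chartAt Euc4 p).map_target hy
  have hcy : chartAt Euc4 p x = y := (chartAt Euc4 p).right_inv hy
  set P := pushFrame h p x with hPdef
  have hP : P.transpose * G p y * P = 1 := by rw [← hcy]; exact pushFrame_spec h hx
  have hPP : P * P.transpose = (G p y)⁻¹ := by rw [← hcy]; exact pushFrame_inv h hx
  have hg : grad h u x = P.transpose *ᵥ dvec (rd p u) y := by rw [← hcy]; exact grad_eq h hx hu
  have hsym : (G p y).transpose = G p y := (isMetricOn h p).transpose_eq y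
  have hGG : G p y * (G p y)⁻¹ = 1 :=
    mul_nonsing_inv _ (Ne.isUnit ((isMetricOn h p).det_ne hy))
  have h2 : (G p y * P) *ᵥ grad h u x = dvec (rd p u) y := by
    rw [hg, mulVec_mulVec, Matrix.mul_assoc, hPP, hGG, one_mulVec]
  have h3 : (G p y * P) * (G p y * P).transpose = G p y := by
    rw [transpose_mul, hsym, Matrix.mul_assoc, ← Matrix.mul_assoc P, hPP, ← Matrix.mul_assoc,
      hGG, Matrix.one_mul]
  have hi : pd (rd p u) i y = ∑ a, (G p y * P) i a * grad h u x a :=
    (congrFun h2 i).symm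
  rw [hi]
  refine (Finset.sum_mul_sq_le_sq_mul_sq Finset.univ _ _).trans_eq ?_
  congr 1
  · conv_rhs => rw [← h3]
    simp only [mul_apply, transpose_apply, pow_two]
  · simp [gsq, rd, dotProduct, pow_two, x]

/-- The coefficients of the densitised Laplacian in a chart, cut off. -/
def coefA (G : X → Euc4 → M4) (p : X) (θ : Euc4 → ℝ) (i j : Fin 4) (y : Euc4) : ℝ :=
  θ y * (dens G p y * (G p y)⁻¹ i j)

/-- A function read in a chart, cut off. -/
def loc (p : X) (θ : Euc4 → ℝ) (u : X → ℝ) (y : Euc4) : ℝ := θ y * rd p u y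

/-- A continuous function times the density, read in a chart, cut off. -/
def locD (G : X → Euc4 → M4) (p : X) (θ : Euc4 → ℝ) (F : X → ℝ) (y : Euc4) : ℝ :=
  θ y * (dens G p y * rd p F y)

variable {p : X} {θ : Euc4 → ℝ}

theorem cs_loc (hθ : Cs θ) (hts : tsupport θ ⊆ (chartAt Euc4 p).target) {u : X → ℝ}
    (hu : Smooth u) : Cs (loc p θ u) :=
  cs_cut hθ (chartAt Euc4 p).open_target hts (hu p)

variable [T2Space X] [CompactSpace X]

include h in
theorem cs_coefA (hθ : Cs θ) (hts : tsupport θ ⊆ (chartAt Euc4 p).target) (i j : Fin 4) :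
    Cs (coefA G p θ i j) :=
  cs_cut hθ (chartAt Euc4 p).open_target hts
    ((smooth_dens h p).mul (smooth_inv (isMetricOn h p) i j))

include h in
theorem cc_locD (hθ : Cs θ) (hts : tsupport θ ⊆ (chartAt Euc4 p).target) {F : X → ℝ}
    (hF : Continuous F) : Cc (locD G p θ F) :=
  cc_cut hθ.cc (chartAt Euc4 p).open_target hts
    ((smooth_dens h p).continuousOn.mul (continuousOn_rd hF p))

variable [MeasurableSpace X] [BorelSpace X]

/-- The cut off readings are bounded by the norms on the manifold. -/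
theorem exists_loc_bound (p : X) (hθ : Cs θ) (hts : tsupport θ ⊆ (chartAt Euc4 p).target) :
    ∃ C, 0 ≤ C ∧
      (∀ u, Smooth u → ∫ y, loc p θ u y ^ 2 ≤ C * ∫ x, u x ^ 2 ∂vol G) ∧
      (∀ u, Smooth u → ∀ i, ∫ y, pd (loc p θ u) i y ^ 2 ≤
        C * ((∫ x, u x ^ 2 ∂vol G) + ∫ x, gsq h u x ∂vol G)) ∧
      ∀ F, Continuous F → ∫ y, locD G p θ F y ^ 2 ≤ C * ∫ x, F x ^ 2 ∂vol G := by
  set T := (chartAt Euc4 p).target
  have hT : IsOpen T := (chartAt Euc4 p).open_target
  have hG := isMetricOn h p
  have w0 := chart_integral_le h p hθ.cc.sq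
    ((tsupport_comp_subset (g := fun t : ℝ => t ^ 2) (by norm_num) θ).trans hts)
  have hpts : ∀ i, tsupport (fun y => pd θ i y ^ 2) ⊆ T := fun i =>
    ((tsupport_comp_subset (g := fun t : ℝ => t ^ 2) (by norm_num) _).trans
      (tsupport_fderiv_apply_subset ℝ _)).trans hts
  have w1 := fun i => chart_integral_le h p (hθ.pd i).cc.sq (hpts i)
  have hw2 : ∀ i, Cc fun y => θ y ^ 2 * G p y i i := fun i =>
    cc_cut hθ.cc.sq hT ((tsupport_comp_subset (g := fun t : ℝ => t ^ 2) (by norm_num) θ).trans hts)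
      (hG.smooth i i).continuousOn
  have w2 := fun i => chart_integral_le h p (hw2 i)
    ((tsupport_mul_subset_left.trans
      (tsupport_comp_subset (g := fun t : ℝ => t ^ 2) (by norm_num) θ)).trans hts)
  have hw3 : Cc fun y => θ y ^ 2 * dens G p y ^ 2 :=
    cc_cut hθ.cc.sq hT ((tsupport_comp_subset (g := fun t : ℝ => t ^ 2) (by norm_num) θ).trans hts)
      ((smooth_dens h p).continuousOn.pow 2)
  have w3 := chart_integral_le h p hw3
    ((tsupport_mul_subset_left.trans
      (tsupport_comp_subset (g := fun t : ℝ => t ^ 2) (by norm_num) θ)).trans hts)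
  obtain ⟨C0, hC0, H0⟩ := w0
  choose C1 hC1 H1 using w1
  choose C2 hC2 H2 using w2
  obtain ⟨C3, hC3, H3⟩ := w3
  have s1 : 0 ≤ ∑ i, C1 i := Finset.sum_nonneg fun i _ => hC1 i
  have s2 : 0 ≤ ∑ i, C2 i := Finset.sum_nonneg fun i _ => hC2 i
  refine ⟨C0 + 2 * (∑ i, C1 i) + 2 * (∑ i, C2 i) + C3, by positivity, fun u hu => ?_,
    fun u hu i => ?_, fun F hF => ?_⟩
  · have e : ∀ y, loc p θ u y ^ 2 = θ y ^ 2 * rd p (fun x => u x ^ 2) y := fun y => by
      simp [loc, rd, mul_pow]
    simp_rw [e]
    refine (H0 _ (hu.continuous.pow 2) fun x => sq_nonneg _).trans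
      (mul_le_mul_of_nonneg_right ?_ (integral_nonneg fun x => sq_nonneg _))
    linarith
  · have hsq : Continuous fun x => u x ^ 2 := hu.continuous.pow 2
    have hgc : Continuous (gsq h u) := continuous_ip h hu hu
    have i1 : Integrable fun y => pd θ i y ^ 2 * rd p (fun x => u x ^ 2) y :=
      (cc_cut (hθ.pd i).cc.sq hT (hpts i) (continuousOn_rd hsq p)).integrable
    have i2 : Integrable fun y => θ y ^ 2 * G p y i i * rd p (gsq h u) y :=
      (cc_cut (hw2 i) hT ((tsupport_mul_subset_left.trans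
        (tsupport_comp_subset (g := fun t : ℝ => t ^ 2) (by norm_num) θ)).trans hts)
        (continuousOn_rd hgc p)).integrable
    have hp : ∀ y, pd (loc p θ u) i y ^ 2 ≤ 2 * (pd θ i y ^ 2 * rd p (fun x => u x ^ 2) y) +
        2 * (θ y ^ 2 * G p y i i * rd p (gsq h u) y) := by
      intro y
      by_cases hy : y ∈ T
      · rw [show pd (loc p θ u) i y = pd θ i y * rd p u y + θ y * pd (rd p u) i y from
          Local.pd_mul (hθ.differentiable y) (Local.differentiableAt_of_smooth (hu p) hT hy) i]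
        have h1 := mul_le_mul_of_nonneg_left (sq_pd_le h p hu hy i) (sq_nonneg (θ y))
        have e : rd p (fun x => u x ^ 2) y = rd p u y ^ 2 := rfl
        rw [e]
        nlinarith [sq_nonneg (pd θ i y * rd p u y - θ y * pd (rd p u) i y)]
      · have h0 : θ y = 0 := image_eq_zero_of_notMem_tsupport fun hm => hy (hts hm)
        have h1 : pd (loc p θ u) i y = 0 := by
          have : y ∉ tsupport (loc p θ u) := fun hm => hy (hts (tsupport_mul_subset_left hm))
          simp [pd, fderiv_of_notMem_tsupport ℝ this]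
        rw [h0, h1]
        have := mul_nonneg (sq_nonneg (pd θ i y)) (sq_nonneg (u ((chartAt Euc4 p).symm y)))
        simp only [rd]
        nlinarith
    refine (integral_mono ((cs_loc hθ hts hu).pd i).cc.sq.integrable
      ((i1.const_mul 2).add (i2.const_mul 2)) hp).trans ?_
    simp only [Pi.add_apply]
    rw [integral_add (i1.const_mul 2) (i2.const_mul 2), integral_const_mul, integral_const_mul]
    have b1 := H1 i _ hsq fun x => sq_nonneg _
    have b2 := H2 i _ hgc (gsq_nonneg h u)
    have d1 := Finset.single_le_sum (f := C1) (fun t _ => hC1 t) (Finset.mem_univ i)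
    have d2 := Finset.single_le_sum (f := C2) (fun t _ => hC2 t) (Finset.mem_univ i)
    have n1 : 0 ≤ ∫ x, u x ^ 2 ∂vol G := integral_nonneg fun x => sq_nonneg _
    have n2 : 0 ≤ ∫ x, gsq h u x ∂vol G := integral_nonneg (gsq_nonneg h u)
    nlinarith [mul_le_mul_of_nonneg_right d1 n1, mul_le_mul_of_nonneg_right d2 n2,
      mul_nonneg hC0 n1, mul_nonneg hC0 n2, mul_nonneg hC3 n1, mul_nonneg hC3 n2,
      mul_nonneg s1 n2, mul_nonneg s2 n1]
  · have e : ∀ y, locD G p θ F y ^ 2 = θ y ^ 2 * dens G p y ^ 2 * rd p (fun x => F x ^ 2) y :=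
      fun y => by simp [locD, rd]; ring
    simp_rw [e]
    refine (H3 _ (hF.pow 2) fun x => sq_nonneg _).trans
      (mul_le_mul_of_nonneg_right ?_ (integral_nonneg fun x => sq_nonneg _))
    linarith

include h in
theorem dens_mul_lap {O : Set Euc4} (hO : IsOpen O) (hOT : O ⊆ (chartAt Euc4 p).target)
    (hθ1 : ∀ y ∈ O, θ y = 1) {f : Euc4 → ℝ} (hf : ContDiffOn ℝ ∞ f (chartAt Euc4 p).target)
    {g : Euc4 → ℝ} (hfg : ∀ y ∈ O, g y = f y) {y : Euc4} (hy : y ∈ O) :
    dv (coefA G p θ) g y = dens G p y * Local.lap (G p) f y := by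
  have hG := isMetricOn h p
  rw [← covDiv_dvec f, dens, ← sum_pd_dens hG (hOT hy) (θ := dvec f) (smooth_dvec hG hf)]
  unfold dv
  refine Finset.sum_congr rfl fun i _ => ?_
  have hd : ∀ j, ContDiffOn ℝ ∞ (fun z => dens G p z * (G p z)⁻¹ i j * pd f j z)
      (chartAt Euc4 p).target := fun j =>
    ((smooth_dens h p).mul (smooth_inv hG i j)).mul (Local.pd_smooth hf hG.isOpen j)
  have e : ∀ j, pd (fun z => coefA G p θ i j z * pd g j z) i y =
      pd (fun z => dens G p z * (G p z)⁻¹ i j * pd f j z) i y := fun j =>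
    Local.pd_congr hO hy (fun z hz => by
      rw [coefA, hθ1 z hz, one_mul, Local.pd_congr hO hz hfg j]) i
  rw [Finset.sum_congr rfl fun j _ => e j,
    ← Local.pd_sum _ fun j _ => Local.differentiableAt_of_smooth (hd j) hG.isOpen (hOT hy)]
  refine Local.pd_congr hG.isOpen (hOT hy) (fun z _ => ?_) i
  simp only [dens, mulVec, dotProduct, dvec, Finset.mul_sum, mul_assoc]

end

end Vale.Agent.P211.Global
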