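import Vale.Agent.P211.Global.Smoothing.Piece

/-!
# P211, module B: from weak residuals to strong ones on the manifold
-/

open Matrix MeasureTheory Function
open scoped ContDiff Topology Manifold

namespace Vale.Agent.P211.Global

noncomputable section

set_option linter.unusedSectionVars false

theorem dot_self_sum_le {ι : Type*} (s : Finset ι) (a : ι → Fin 4 → ℝ) :
    (∑ t ∈ s, a t) ⬝ᵥ (∑ t ∈ s, a t) ≤ s.card * ∑ t ∈ s, a t ⬝ᵥ a t := by
  simp only [dotProduct, Finset.sum_apply]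
  rw [Finset.sum_comm, Finset.mul_sum]
  refine Finset.sum_le_sum fun i _ => ?_
  rw [← pow_two]
  simpa [pow_two] using Mollify.sq_sum_le s fun t => a t i

variable {X : Type*} [TopologicalSpace X] [ChartedSpace Euc4 X]
  [IsManifold (𝓘(ℝ, Euc4)) ∞ X] [T2Space X] [CompactSpace X] [MeasurableSpace X] [BorelSpace X]
variable {G : X → Euc4 → M4} (h : IsMetricAtlas G)
include h

theorem integral_sq_sum_le {ι : Type*} (s : Finset ι) {F : ι → X → ℝ}
    (hF : ∀ t ∈ s, Continuous (F t)) :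
    ∫ x, (∑ t ∈ s, F t x) ^ 2 ∂vol G ≤ s.card * ∑ t ∈ s, ∫ x, F t x ^ 2 ∂vol G := by
  rw [← integral_finsetSum s (f := fun t x => F t x ^ 2)
    fun t ht => integrable_continuous h ((hF t ht).pow 2), ← integral_const_mul]
  exact integral_mono (integrable_continuous h ((continuous_finsetSum s hF).pow 2))
    ((integrable_finsetSum s fun t ht => integrable_continuous h ((hF t ht).pow 2)).const_mul _)
    fun x => Mollify.sq_sum_le s fun t => F t x

theorem continuous_hess_trace_sub_bracket (p : X) {W u k : X → ℝ} (hW : Smooth W) (hu : Smooth u)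
    (hk : Continuous k) :
    Continuous fun x => (hess h (fun z => chi p z * W z) x).trace - bracket h p u k x :=
  (continuous_trace_hess h ((smooth_chi p).mul hW)).sub
    ((((chi_continuous p).mul hk).add (hu.continuous.mul
      (continuous_trace_hess h (smooth_chi p)))).add
      (continuous_const.mul (continuous_ip h (smooth_chi p) hu)))

/-- The `weakToStrong` field of the analytic facade, for a metric given in charts. -/
theorem weakToStrong (u k : ℕ → X → ℝ) (lo hi : X → ℝ) (e : ℕ → ℝ)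
    (hu : ∀ m, Smooth (u m)) (hk : ∀ m, Continuous (k m)) (hlo : Continuous lo)
    (hhi : Continuous hi) (hband : ∀ m x, lo x ≤ u m x ∧ u m x ≤ hi x)
    (hC : ∀ ε > 0, ∃ N, ∀ m ≥ N, ∀ n ≥ N,
      (∫ x, (u m x - u n x) ^ 2 ∂vol G) +
        (∫ x, (grad h (u m) x - grad h (u n) x) ⬝ᵥ (grad h (u m) x - grad h (u n) x) ∂vol G) +
        (∫ x, (k m x - k n x) ^ 2 ∂vol G) < ε)
    (he : Filter.Tendsto e Filter.atTop (nhds 0))
    (hres : ∀ m Φ, Smooth Φ → |∫ x, (grad h (u m) x ⬝ᵥ grad h Φ x + k m x * Φ x) ∂vol G| ≤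
      e m * √(∫ x, (Φ x ^ 2 + grad h Φ x ⬝ᵥ grad h Φ x) ∂vol G)) :
    ∀ ε > 0, ∃ N, ∀ m ≥ N, ∃ v, Smooth v ∧
      (∫ x, (v x - u m x) ^ 2 ∂vol G) +
        (∫ x, (grad h v x - grad h (u m) x) ⬝ᵥ (grad h v x - grad h (u m) x) ∂vol G) < ε ∧
      (∫ x, ((hess h v x).trace - k m x) ^ 2 ∂vol G) < ε ∧
      ∀ x, lo x - ε ≤ v x ∧ v x ≤ hi x + ε := by
  intro ε hε
  have nn0 : ∀ m n, 0 ≤ ∫ x, (u m x - u n x) ^ 2 ∂vol G := fun m n =>
    integral_nonneg fun x => sq_nonneg _
  have e1 : ∀ m n, ∫ x, gsq h (fun z => u m z - u n z) x ∂vol G =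
      ∫ x, (grad h (u m) x - grad h (u n) x) ⬝ᵥ (grad h (u m) x - grad h (u n) x) ∂vol G :=
    fun m n => by simp [gsq, grad_sub' h (hu m) (hu n)]
  have nn1 : ∀ m n, 0 ≤ ∫ x, gsq h (fun z => u m z - u n z) x ∂vol G := fun m n =>
    integral_nonneg (gsq_nonneg h _)
  have nn2 : ∀ m n, 0 ≤ ∫ x, (k m x - k n x) ^ 2 ∂vol G := fun m n =>
    integral_nonneg fun x => sq_nonneg _
  have hC0 : ∀ δ > 0, ∃ N, ∀ m ≥ N, ∀ n ≥ N, ∫ x, (u m x - u n x) ^ 2 ∂vol G < δ := fun δ hδ => by
    obtain ⟨N, hN⟩ := hC δ hδ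
    exact ⟨N, fun m hm n hn => by
      have := hN m hm n hn; rw [← e1] at this; linarith [nn1 m n, nn2 m n]⟩
  have hC1 : ∀ δ > 0, ∃ N, ∀ m ≥ N, ∀ n ≥ N,
      ∫ x, gsq h (fun z => u m z - u n z) x ∂vol G < δ := fun δ hδ => by
    obtain ⟨N, hN⟩ := hC δ hδ
    exact ⟨N, fun m hm n hn => by
      have := hN m hm n hn; rw [← e1] at this; linarith [nn0 m n, nn2 m n]⟩
  have hC2 : ∀ δ > 0, ∃ N, ∀ m ≥ N, ∀ n ≥ N, ∫ x, (k m x - k n x) ^ 2 ∂vol G < δ := fun δ hδ => by
    obtain ⟨N, hN⟩ := hC δ hδ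
    exact ⟨N, fun m hm n hn => by
      have := hN m hm n hn; rw [← e1] at this; linarith [nn0 m n, nn1 m n]⟩
  set P := pts X
  set c : ℝ := (P.card : ℝ) with hcdef
  set δ := ε / (4 * (c * c + 1)) with hδdef
  have hδ : 0 < δ := by positivity
  have hcδ : 4 * (c * c * δ) < ε := by
    rw [hδdef]
    field_simp
    nlinarith
  have hδε : δ ≤ ε := div_le_self hε.le (by nlinarith [mul_self_nonneg c])
  choose N hN using fun p : X => exists_piece h p hu hk hlo hhi hband hC0 hC1 hC2 he hres hδ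
  refine ⟨P.sup N, fun m hm => ?_⟩
  have hm' : ∀ p ∈ P, N p ≤ m := fun p hp => (Finset.le_sup hp).trans hm
  have hWex : ∀ p : X, ∃ W : X → ℝ, Smooth W ∧ (p ∈ P →
      ∫ x, (chi p x * (W x - u m x)) ^ 2 ∂vol G < δ ∧
      ∫ x, gsq h (fun z => chi p z * (W z - u m z)) x ∂vol G < δ ∧
      ∫ x, ((hess h (fun z => chi p z * W z) x).trace - bracket h p (u m) (k m) x) ^ 2 ∂vol G < δ ∧
      ∀ x, chi p x ≠ 0 → lo x - δ ≤ W x ∧ W x ≤ hi x + δ) := fun p => by
    by_cases hp : p ∈ P
    · obtain ⟨W, h1, h2⟩ := hN p m (hm' p hp)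
      exact ⟨W, h1, fun _ => h2⟩
    · exact ⟨u m, hu m, fun h' => absurd h' hp⟩
  choose W hW hWb using hWex
  have hv : Smooth fun z => ∑ p ∈ P, chi p z * W p z :=
    Smooth.sum P fun p _ => (smooth_chi p).mul (hW p)
  have hd : ∀ p, Smooth fun z => chi p z * (W p z - u m z) := fun p =>
    (smooth_chi p).mul ((hW p).sub (hu m))
  have hdiff : ∀ x, (∑ p ∈ P, chi p x * W p x) - u m x = ∑ p ∈ P, chi p x * (W p x - u m x) := by
    intro x
    simp only [mul_sub, Finset.sum_sub_distrib]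
    rw [← Finset.sum_mul, sum_chi, one_mul]
  have hsum : ∀ (F : X → ℝ), (∀ p ∈ P, F p < δ) → c * ∑ p ∈ P, F p ≤ c * c * δ := fun F hF => by
    rw [mul_assoc]
    refine mul_le_mul_of_nonneg_left ((Finset.sum_le_sum fun p hp => (hF p hp).le).trans_eq ?_)
      (Nat.cast_nonneg _)
    simp [c]
  have b0 : ∫ x, ((∑ p ∈ P, chi p x * W p x) - u m x) ^ 2 ∂vol G ≤ c * c * δ := by
    simp_rw [hdiff]
    exact (integral_sq_sum_le h P fun p _ => (hd p).continuous).trans
      (hsum _ fun p hp => (hWb p hp).1)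
  have b1 : ∫ x, (grad h (fun z => ∑ p ∈ P, chi p z * W p z) x - grad h (u m) x) ⬝ᵥ
      (grad h (fun z => ∑ p ∈ P, chi p z * W p z) x - grad h (u m) x) ∂vol G ≤ c * c * δ := by
    have e : ∀ x, grad h (fun z => ∑ p ∈ P, chi p z * W p z) x - grad h (u m) x =
        ∑ p ∈ P, grad h (fun z => chi p z * (W p z - u m z)) x := fun x => by
      rw [← grad_sub' h hv (hu m), ← grad_sum h P (fun p _ => hd p)]
      exact congrArg (fun f => grad h f x) (funext hdiff)
    simp_rw [e]
    have hic : ∀ p ∈ P, Integrable (gsq h fun z => chi p z * (W p z - u m z)) (vol G) := fun p _ =>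
      integrable_continuous h (continuous_ip h (hd p) (hd p))
    refine le_trans ?_ (hsum _ fun p hp => (hWb p hp).2.1)
    rw [← integral_finsetSum P hic, ← integral_const_mul]
    have hs : Smooth fun z => ∑ p ∈ P, chi p z * (W p z - u m z) := Smooth.sum P fun p _ => hd p
    refine integral_mono (integrable_continuous h ?_) ((integrable_finsetSum P hic).const_mul _)
      fun x => ?_
    · refine (continuous_ip h hs hs).congr fun x => ?_
      rw [grad_sum h P (fun p _ => hd p)]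
    · exact dot_self_sum_le P fun p => grad h (fun z => chi p z * (W p z - u m z)) x
  have b2 : ∫ x, ((hess h (fun z => ∑ p ∈ P, chi p z * W p z) x).trace - k m x) ^ 2 ∂vol G ≤
      c * c * δ := by
    have hone : (fun z => ∑ p ∈ P, chi p z) = fun _ => (1 : ℝ) := funext fun z => sum_chi z
    have e : ∀ x, (hess h (fun z => ∑ p ∈ P, chi p z * W p z) x).trace - k m x =
        ∑ p ∈ P, ((hess h (fun z => chi p z * W p z) x).trace - bracket h p (u m) (k m) x) := by
      intro x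
      rw [trace_hess_sum h P (fun p _ => (smooth_chi p).mul (hW p)), Finset.sum_sub_distrib]
      congr 1
      have h1 : ∑ p ∈ P, (hess h (chi p) x).trace = 0 := by
        rw [← trace_hess_sum h P (fun p _ => smooth_chi p), hone, hess_const', Matrix.trace_zero]
      have h2 : ∑ p ∈ P, grad h (chi p) x ⬝ᵥ grad h (u m) x = 0 := by
        rw [← sum_dotProduct, ← grad_sum h P (fun p _ => smooth_chi p), hone, grad_const',
          zero_dotProduct]
      simp only [bracket, Finset.sum_add_distrib, ← Finset.mul_sum, ← Finset.sum_mul, h1, h2]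
      rw [sum_chi]
      ring
    simp_rw [e]
    exact (integral_sq_sum_le h P fun p _ =>
      continuous_hess_trace_sub_bracket h p (hW p) (hu m) (hk m)).trans
      (hsum _ fun p hp => (hWb p hp).2.2.1)
  have hnn : 0 ≤ c * c * δ := mul_nonneg (mul_self_nonneg c) hδ.le
  refine ⟨fun z => ∑ p ∈ P, chi p z * W p z, hv, by linarith, by linarith, fun x => ?_⟩
  have hb : ∀ p ∈ P, chi p x * (lo x - δ) ≤ chi p x * W p x ∧
      chi p x * W p x ≤ chi p x * (hi x + δ) := fun p hp => by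
    by_cases h0 : chi p x = 0
    · simp [h0]
    · exact ⟨mul_le_mul_of_nonneg_left ((hWb p hp).2.2.2 x h0).1 (chi_nonneg p x),
        mul_le_mul_of_nonneg_left ((hWb p hp).2.2.2 x h0).2 (chi_nonneg p x)⟩
  have l := Finset.sum_le_sum fun p hp => (hb p hp).1
  have r := Finset.sum_le_sum fun p hp => (hb p hp).2
  rw [← Finset.sum_mul, sum_chi, one_mul] at l r
  constructor <;> linarith

end

end Vale.Agent.P211.Global
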