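import Vale.Agent.P211.Global.Geom
import Vale.Agent.P211.Global.Smoothing.Main

/-!
# P211, module B: the field `weakToStrong` of the facade
-/

open MeasureTheory
open scoped ContDiff Manifold

namespace Vale.Agent.P211.Global

noncomputable section

variable {X : Type*} [TopologicalSpace X] [ChartedSpace Euc4 X]
  [IsManifold (𝓘(ℝ, Euc4)) ∞ X] [T2Space X] [CompactSpace X] [MeasurableSpace X] [BorelSpace X]
variable {G : X → Euc4 → M4} (h : IsMetricAtlas G)

theorem weakToStrongProp : WeakToStrongProp h :=
  fun u f lo hi e hu hf hlo hhi hband hC he hres =>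
    weakToStrong h u f lo hi e hu hf hlo hhi hband hC he hres

end

end Vale.Agent.P211.Global
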