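import Vale.Agent.P211.Global.Smoothing.Est

/-!
# P211, module B: linearity and locality of the differential operators on the manifold
-/

open Matrix MeasureTheory
open scoped ContDiff Topology Manifold

namespace Vale.Agent.P211.Global

noncomputable section

set_option linter.unusedSectionVars false

variable {X : Type*} [TopologicalSpace X] [ChartedSpace Euc4 X]
variable {G : X → Euc4 → M4} (h : IsMetricAtlas G)

theorem diff_rd {u : X → ℝ} (hu : Smooth u) (p : X) {y : Euc4}
    (hy : y ∈ (chartAt Euc4 p).target) : DifferentiableAt ℝ (rd p u) y :=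
  Local.differentiableAt_of_smooth (hu p) (chartAt Euc4 p).open_target hy

theorem grad_sum {ι : Type*} (s : Finset ι) {u : ι → X → ℝ} (hu : ∀ t ∈ s, Smooth (u t)) (x : X) :
    grad h (fun z => ∑ t ∈ s, u t z) x = ∑ t ∈ s, grad h (u t) x := by
  have hy := (chartAt Euc4 x).map_source (mem_chart_source Euc4 x)
  have e : dvec (rd x fun z => ∑ t ∈ s, u t z) (chartAt Euc4 x x) =
      ∑ t ∈ s, dvec (rd x (u t)) (chartAt Euc4 x x) := by
    funext i
    simp only [dvec, Finset.sum_apply]
    exact Local.pd_sum s (fun t ht => diff_rd (hu t ht) x hy) i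
  simp only [grad, e, mulVec_sum]

theorem grad_sub' {u v : X → ℝ} (hu : Smooth u) (hv : Smooth v) (x : X) :
    grad h (fun z => u z - v z) x = grad h u x - grad h v x := by
  have hy := (chartAt Euc4 x).map_source (mem_chart_source Euc4 x)
  have e : dvec (rd x fun z => u z - v z) (chartAt Euc4 x x) =
      dvec (rd x u) (chartAt Euc4 x x) - dvec (rd x v) (chartAt Euc4 x x) := by
    funext i
    exact Local.pd_sub (diff_rd hu x hy) (diff_rd hv x hy) i
  simp only [grad, e, mulVec_sub]

theorem hessM_sum {G' : Euc4 → M4} {U : Set Euc4} (hU : IsOpen U) {ι : Type*} (s : Finset ι)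
    {f : ι → Euc4 → ℝ} (hf : ∀ t ∈ s, ContDiffOn ℝ ∞ (f t) U) {y : Euc4} (hy : y ∈ U) :
    hessM G' (fun z => ∑ t ∈ s, f t z) y = ∑ t ∈ s, hessM G' (f t) y := by
  have hd : ∀ z ∈ U, ∀ j, pd (fun w => ∑ t ∈ s, f t w) j z = ∑ t ∈ s, pd (f t) j z :=
    fun z hz j => Local.pd_sum s (fun t ht => Local.differentiableAt_of_smooth (hf t ht) hU hz) j
  ext i j
  simp only [hessM, of_apply, Matrix.sum_apply, hd y hy, Finset.sum_sub_distrib, Finset.mul_sum]
  rw [Local.pd_congr hU hy (f := pd (fun w => ∑ t ∈ s, f t w) j) (fun z hz => hd z hz j) i,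
    Local.pd_sum s fun t ht => Local.differentiableAt_of_smooth
      (Local.pd_smooth (hf t ht) hU j) hU hy]
  congr 1
  rw [Finset.sum_comm]

theorem trace_hess_sum {ι : Type*} (s : Finset ι) {u : ι → X → ℝ} (hu : ∀ t ∈ s, Smooth (u t))
    (x : X) : (hess h (fun z => ∑ t ∈ s, u t z) x).trace = ∑ t ∈ s, (hess h (u t) x).trace := by
  have hy := (chartAt Euc4 x).map_source (mem_chart_source Euc4 x)
  have e : hessM (G x) (rd x fun z => ∑ t ∈ s, u t z) (chartAt Euc4 x x) =
      ∑ t ∈ s, hessM (G x) (rd x (u t)) (chartAt Euc4 x x) :=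
    hessM_sum (chartAt Euc4 x).open_target s (fun t ht => hu t ht x) hy
  simp only [hess, e, Matrix.mul_sum, Matrix.sum_mul, Matrix.trace_sum]

theorem grad_const' (c : ℝ) (x : X) : grad h (fun _ => c) x = 0 := by
  have e : dvec (rd x fun _ : X => c) (chartAt Euc4 x x) = 0 := funext fun i => Local.pd_const c i
  simp [grad, e]

theorem hess_const' (c : ℝ) (x : X) : hess h (fun _ => c) x = 0 := by
  have e : hessM (G x) (rd x fun _ : X => c) (chartAt Euc4 x x) = 0 := by
    ext i j
    have : pd (rd x fun _ : X => c) j = fun _ => 0 := funext fun z => Local.pd_const c j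
    simp [hessM, this, Local.pd_const, show ∀ k, pd (rd x fun _ : X => c) k (chartAt Euc4 x x) = 0
      from fun k => Local.pd_const c k]
  simp [hess, e]

theorem rd_eventually_zero {u : X → ℝ} {x : X} (hx : u =ᶠ[𝓝 x] 0) :
    rd x u =ᶠ[𝓝 (chartAt Euc4 x x)] fun _ => 0 := by
  have hs := mem_chart_source Euc4 x
  have hc := (chartAt Euc4 x).continuousAt_symm ((chartAt Euc4 x).map_source hs)
  rw [ContinuousAt, (chartAt Euc4 x).left_inv hs] at hc
  exact hc.eventually hx

theorem grad_eq_zero {u : X → ℝ} {x : X} (hx : u =ᶠ[𝓝 x] 0) : grad h u x = 0 := by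
  have e : dvec (rd x u) (chartAt Euc4 x x) = 0 := funext fun i => by
    simp [dvec, pd, (rd_eventually_zero hx).fderiv_eq]
  simp [grad, e]

theorem hess_eq_zero {u : X → ℝ} {x : X} (hx : u =ᶠ[𝓝 x] 0) : hess h u x = 0 := by
  have e : hessM (G x) (rd x u) (chartAt Euc4 x x) = 0 := by
    ext i j
    have h1 : ∀ k, pd (rd x u) k =ᶠ[𝓝 (chartAt Euc4 x x)] fun _ => 0 := fun k => by
      filter_upwards [(rd_eventually_zero hx).eventuallyEq_nhds] with z hz
      simp [pd, hz.fderiv_eq]
    have h2 : pd (pd (rd x u) j) i (chartAt Euc4 x x) = 0 := by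
      show fderiv ℝ (pd (rd x u) j) _ _ = 0
      simp [(h1 j).fderiv_eq]
    simp [hessM, h2, fun k => (h1 k).eq_of_nhds]
  simp [hess, e]

end

end Vale.Agent.P211.Global
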