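import Vale.Agent.P211.Global.Smoothing.Chart

/-!
# P211, module B: one piece of the smoothed function
-/

open Matrix MeasureTheory Metric Function
open scoped ContDiff Topology Manifold

namespace Vale.Agent.P211.Global

open Mollify (Cc Cs dv conv ker)

noncomputable section

set_option linter.unusedSectionVars false

theorem three_sq_le {a b c : ℝ} : (a + b + c) ^ 2 ≤ 3 * a ^ 2 + 3 * b ^ 2 + 3 * c ^ 2 := by
  nlinarith [sq_nonneg (a - b), sq_nonneg (b - c), sq_nonneg (a - c)]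

theorem sum_cross_sq_le (A : Fin 4 → Fin 4 → ℝ) (χ d : Fin 4 → ℝ) {M : ℝ}
    (hM : ∀ i j k, |A i j * χ k| ≤ M) :
    (∑ i, ∑ j, A i j * (χ j * d i + χ i * d j)) ^ 2 ≤ 256 * M ^ 2 * ∑ i, d i ^ 2 := by
  have hM0 : 0 ≤ M := (abs_nonneg _).trans (hM 0 0 0)
  have h1 : |∑ i, ∑ j, A i j * (χ j * d i + χ i * d j)| ≤ 8 * M * ∑ i, |d i| := by
    refine (Finset.abs_sum_le_sum_abs _ _).trans ?_
    calc ∑ i, |∑ j, A i j * (χ j * d i + χ i * d j)| ≤ ∑ i, ∑ j, (M * |d i| + M * |d j|) := by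
          refine Finset.sum_le_sum fun i _ => (Finset.abs_sum_le_sum_abs _ _).trans
            (Finset.sum_le_sum fun j _ => ?_)
          rw [mul_add, ← mul_assoc, ← mul_assoc]
          refine (abs_add_le _ _).trans (add_le_add ?_ ?_) <;>
            · rw [abs_mul]; exact mul_le_mul_of_nonneg_right (hM _ _ _) (abs_nonneg _)
      _ = _ := by simp only [Fin.sum_univ_four]; ring
  have h2 : (∑ i, |d i|) ^ 2 ≤ 4 * ∑ i, d i ^ 2 := by
    refine (Mollify.sq_sum_le _ _).trans_eq ?_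
    simp
  calc _ ≤ (8 * M * ∑ i, |d i|) ^ 2 := by
        rw [← sq_abs]; exact pow_le_pow_left₀ (abs_nonneg _) h1 2
    _ = 64 * M ^ 2 * (∑ i, |d i|) ^ 2 := by ring
    _ ≤ 64 * M ^ 2 * (4 * ∑ i, d i ^ 2) := mul_le_mul_of_nonneg_left h2 (by positivity)
    _ = _ := by ring

theorem exists_bound {ι : Type*} [Fintype ι] {F : ι → Euc4 → ℝ} (hF : ∀ t, Cc (F t)) :
    ∃ M, 0 ≤ M ∧ ∀ t y, |F t y| ≤ M := by
  choose B hB using fun t => (hF t).2.exists_bound_of_continuous (hF t).1
  refine ⟨∑ t, max (B t) 0, Finset.sum_nonneg fun t _ => le_max_right _ _, fun t y => ?_⟩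
  exact (hB t y).trans ((le_max_left _ _).trans
    (Finset.single_le_sum (f := fun t => max (B t) 0) (fun t _ => le_max_right _ _)
      (Finset.mem_univ t)))

theorem tendsto_cauchy {a : ℕ → ℕ → ℝ} {C : ℝ} (hC : 0 ≤ C)
    (h : ∀ ε > 0, ∃ N, ∀ m ≥ N, ∀ n ≥ N, a m n < ε) {ε : ℝ} (hε : 0 < ε) :
    ∃ N, ∀ m ≥ N, ∀ n ≥ N, C * a m n < ε := by
  obtain ⟨N, hN⟩ := h (ε / (C + 1)) (by positivity)
  refine ⟨N, fun m hm n hn => ?_⟩
  rcases le_or_gt 0 (a m n) with ha | ha
  · calc C * a m n ≤ (C + 1) * a m n := mul_le_mul_of_nonneg_right (by linarith) ha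
      _ < (C + 1) * (ε / (C + 1)) := mul_lt_mul_of_pos_left (hN m hm n hn) (by linarith)
      _ = ε := by field_simp
  · nlinarith

theorem cc_dv {A : Fin 4 → Fin 4 → Euc4 → ℝ} (hA : ∀ i j, Cs (A i j)) {χ : Euc4 → ℝ}
    (hχ : Cs χ) : Cc (dv A χ) := by
  refine ⟨continuous_finsetSum _ fun i _ => continuous_finsetSum _ fun j _ =>
    ((Cs.mul (hA i j).1 (hχ.pd j)).pd i).1.continuous,
    HasCompactSupport.of_support_subset_isCompact hχ.2 fun y hy => ?_⟩
  by_contra hne
  refine hy (Finset.sum_eq_zero fun i _ => Finset.sum_eq_zero fun j _ => ?_)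
  have hev : (fun z => A i j z * pd χ j z) =ᶠ[𝓝 y] fun _ => 0 := by
    filter_upwards [(isClosed_tsupport χ).isOpen_compl.mem_nhds hne] with z hz
    simp [pd, fderiv_of_notMem_tsupport ℝ hz]
  show fderiv ℝ (fun z => A i j z * pd χ j z) y (EuclideanSpace.single i 1) = 0
  simp [hev.fderiv_eq]

variable {X : Type*} [TopologicalSpace X] [ChartedSpace Euc4 X]
  [IsManifold (𝓘(ℝ, Euc4)) ∞ X] [T2Space X] [CompactSpace X] [MeasurableSpace X] [BorelSpace X]
variable {G : X → Euc4 → M4} (h : IsMetricAtlas G)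
variable {p : X}

/-- The bracket which the smoothed pieces must approximate. -/
def bracket (p : X) (u k : X → ℝ) (x : X) : ℝ :=
  chi p x * k x + u x * (hess h (chi p) x).trace + 2 * (grad h (chi p) x ⬝ᵥ grad h u x)

/-- A cutoff adapted to the support of one member of the partition of unity. -/
structure IsCut (p : X) (θ : Euc4 → ℝ) (O : Set Euc4) : Prop where
  cs : Cs θ
  ts : tsupport θ ⊆ (chartAt Euc4 p).target
  isOpen : IsOpen O
  sub : O ⊆ (chartAt Euc4 p).target
  one : ∀ y ∈ O, θ y = 1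
  cover : chartAt Euc4 p '' tsupport (chi p) ⊆ O

/-- A chart function cut off and put on the manifold. -/
def lift (p : X) (θ w : Euc4 → ℝ) : X → ℝ := push p fun y => θ y * w y

variable {θ : Euc4 → ℝ} {O : Set Euc4}

theorem IsCut.exists (p : X) : ∃ θ O, IsCut p θ O := by
  obtain ⟨θ, O, hθ, hts, hO, hKO, hOT, hθ1⟩ := exists_cutoff (isCompact_chart_tsupport p)
    (chartAt Euc4 p).open_target (by
      rintro _ ⟨x, hx, rfl⟩; exact (chartAt Euc4 p).map_source (chi_tsupport p hx))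
  exact ⟨θ, O, hθ, hts, hO, hOT, hθ1, hKO⟩

variable (hc : IsCut p θ O)
include hc

theorem IsCut.smooth_lift {w : Euc4 → ℝ} (hw : Cs w) : Smooth (lift p θ w) :=
  smooth_push (Cs.mul hc.cs.1 hw) (tsupport_mul_subset_left.trans hc.ts)

theorem IsCut.rd_lift {w : Euc4 → ℝ} {y : Euc4} (hy : y ∈ O) : rd p (lift p θ w) y = w y := by
  rw [lift, rd_push (hc.sub hy), hc.one y hy, one_mul]

theorem IsCut.rd_loc {u : X → ℝ} {y : Euc4} (hy : y ∈ O) : rd p u y = loc p θ u y := by
  simp [loc, hc.one y hy]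

theorem IsCut.compact : IsCompact (chartAt Euc4 p '' tsupport (chi p)) :=
  isCompact_chart_tsupport p

include h in
theorem exists_piece_l2 : ∃ C, 0 ≤ C ∧ ∀ u w, Smooth u → Cs w →
    ∫ x, (chi p x * (lift p θ w x - u x)) ^ 2 ∂vol G ≤
      C * ∫ y in chartAt Euc4 p '' tsupport (chi p), (w y - loc p θ u y) ^ 2 := by
  set K := chartAt Euc4 p '' tsupport (chi p) with hKdef
  have hKc : IsCompact K := isCompact_chart_tsupport p
  have hKO : K ⊆ O := hc.cover
  have hKT : K ⊆ (chartAt Euc4 p).target := hKO.trans hc.sub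
  set χ := loc p θ (chi p) with hχdef
  have hχ : Cs χ := cs_loc hc.cs hc.ts (smooth_chi p)
  obtain ⟨C0, hC0', H0⟩ := integral_le_chart h p (isClosed_tsupport (chi p)).isCompact (chi_tsupport p)
  have hzero : ∀ x, x ∉ tsupport (chi p) → chi p =ᶠ[𝓝 x] 0 :=
    fun x hx => notMem_tsupport_iff_eventuallyEq.1 hx
  obtain ⟨M, hM⟩ := hχ.2.exists_bound_of_continuous hχ.1.continuous
  refine ⟨C0 * M ^ 2, by positivity, fun u w hu hw => ?_⟩
  set f := loc p θ u with hfdef
  have hf : Cs f := cs_loc hc.cs hc.ts hu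
  set W := lift p θ w with hWdef
  have hW : Smooth W := hc.smooth_lift hw
  have rW : ∀ y ∈ O, rd p W y = w y := fun y hy => hc.rd_lift hy
  have rχ : ∀ y ∈ O, rd p (chi p) y = χ y := fun y hy => hc.rd_loc hy
  have rf : ∀ y ∈ O, rd p u y = f y := fun y hy => hc.rd_loc hy
  have hd : Cs fun y => w y - f y := hw.sub hf
  have pdd : ∀ i y, pd (fun z => w z - f z) i y = pd w i y - pd f i y := fun i y =>
    Local.pd_sub (hw.differentiable y) (hf.differentiable y) i
  have i0 : IntegrableOn (fun y => (w y - f y) ^ 2) K := hd.cc.sq.integrable.integrableOn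
  have _is : IntegrableOn (fun y => ∑ i, (pd w i y - pd f i y) ^ 2) K :=
    integrable_finsetSum _ fun i _ =>
      ((hw.pd i).cc.sub (hf.pd i).cc).sq.integrable.integrableOn
  have hF : Smooth fun z => chi p z * (W z - u z) := (smooth_chi p).mul (hW.sub hu)
  refine (H0 (fun x => (chi p x * (W x - u x)) ^ 2) (hF.continuous.pow 2)
    (fun x => sq_nonneg _) fun x hx => by simp [(hzero x hx).eq_of_nhds]).trans ?_
  rw [mul_assoc, ← integral_const_mul (M ^ 2)]
  refine mul_le_mul_of_nonneg_left (setIntegral_mono_on (((continuousOn_rd (hF.continuous.pow 2)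
    p).mono hKT).integrableOn_compact hKc) (i0.const_mul _) hKc.measurableSet fun y hy => ?_) hC0'
  show (rd p (chi p) y * (rd p W y - rd p u y)) ^ 2 ≤ _
  rw [rχ y (hKO hy), rW y (hKO hy), rf y (hKO hy), mul_pow]
  exact mul_le_mul_of_nonneg_right
    (sq_abs (χ y) ▸ pow_le_pow_left₀ (abs_nonneg _) (hM y) 2) (sq_nonneg _)

include h in
theorem exists_piece_energy : ∃ C, 0 ≤ C ∧ ∀ u w, Smooth u → Cs w →
    ∫ x, gsq h (fun z => chi p z * (lift p θ w z - u z)) x ∂vol G ≤
      C * ((∫ y in chartAt Euc4 p '' tsupport (chi p), (w y - loc p θ u y) ^ 2) +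
        ∫ y in chartAt Euc4 p '' tsupport (chi p), ∑ i, (pd w i y - pd (loc p θ u) i y) ^ 2) := by
  set K := chartAt Euc4 p '' tsupport (chi p) with hKdef
  have hKc : IsCompact K := isCompact_chart_tsupport p
  have hKO : K ⊆ O := hc.cover
  have hKT : K ⊆ (chartAt Euc4 p).target := hKO.trans hc.sub
  set χ := loc p θ (chi p) with hχdef
  have hχ : Cs χ := cs_loc hc.cs hc.ts (smooth_chi p)
  obtain ⟨C0, hC0', H0⟩ := integral_le_chart h p (isClosed_tsupport (chi p)).isCompact (chi_tsupport p)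
  have hzero : ∀ x, x ∉ tsupport (chi p) → chi p =ᶠ[𝓝 x] 0 :=
    fun x hx => notMem_tsupport_iff_eventuallyEq.1 hx
  obtain ⟨M, hM0, hM⟩ := exists_bound (ι := Unit ⊕ Fin 4 ⊕ (Fin 4 × Fin 4))
    (F := Sum.elim (fun _ => χ) (Sum.elim (fun i y => pd χ i y)
      fun t y => θ y * (G p y)⁻¹ t.1 t.2)) (by
    rintro (_ | i | t)
    · exact hχ.cc
    · exact (hχ.pd i).cc
    · exact cc_cut hc.cs.cc (chartAt Euc4 p).open_target hc.ts
        (smooth_inv (isMetricOn h p) _ _).continuousOn)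
  have bχ : ∀ y, |χ y| ≤ M := hM (Sum.inl ())
  have bp : ∀ i y, |pd χ i y| ≤ M := fun i => hM (Sum.inr (Sum.inl i))
  have bN : ∀ i j, ∀ y ∈ O, |(G p y)⁻¹ i j| ≤ M := fun i j y hy => by
    simpa [hc.one y hy] using hM (Sum.inr (Sum.inr (i, j))) y
  refine ⟨C0 * (32 * M ^ 3), by positivity, fun u w hu hw => ?_⟩
  set f := loc p θ u with hfdef
  have hf : Cs f := cs_loc hc.cs hc.ts hu
  set W := lift p θ w with hWdef
  have hW : Smooth W := hc.smooth_lift hw
  have rW : ∀ y ∈ O, rd p W y = w y := fun y hy => hc.rd_lift hy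
  have rχ : ∀ y ∈ O, rd p (chi p) y = χ y := fun y hy => hc.rd_loc hy
  have rf : ∀ y ∈ O, rd p u y = f y := fun y hy => hc.rd_loc hy
  have hd : Cs fun y => w y - f y := hw.sub hf
  have pdd : ∀ i y, pd (fun z => w z - f z) i y = pd w i y - pd f i y := fun i y =>
    Local.pd_sub (hw.differentiable y) (hf.differentiable y) i
  have i0 : IntegrableOn (fun y => (w y - f y) ^ 2) K := hd.cc.sq.integrable.integrableOn
  have is : IntegrableOn (fun y => ∑ i, (pd w i y - pd f i y) ^ 2) K :=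
    integrable_finsetSum _ fun i _ =>
      ((hw.pd i).cc.sub (hf.pd i).cc).sq.integrable.integrableOn
  have hF : Smooth fun z => chi p z * (W z - u z) := (smooth_chi p).mul (hW.sub hu)
  refine (H0 (gsq h fun z => chi p z * (W z - u z))
    (continuous_ip h hF hF) (gsq_nonneg h _) fun x hx => ?_).trans ?_
  · have : (fun z => chi p z * (W z - u z)) =ᶠ[𝓝 x] 0 := by
      filter_upwards [hzero x hx] with z hz; simp [hz]
    simp [gsq, grad_eq_zero h this]
  have hmono : ∀ y ∈ K, rd p (gsq h fun z => chi p z * (W z - u z)) y ≤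
      4 * M * (2 * M ^ 2 * (4 * (w y - f y) ^ 2 +
        ∑ i, (pd w i y - pd f i y) ^ 2)) := by
    intro y hy
    show rd p (fun x => grad h _ x ⬝ᵥ grad h _ x) y ≤ _
    rw [rd_ip h p hF hF (hKT hy)]
    refine (abs_quad_le _ _ fun i j => bN i j y (hKO hy)).trans
      (mul_le_mul_of_nonneg_left ?_ (by positivity))
    have hF' : ∀ i, dvec (rd p fun z => chi p z * (W z - u z)) y i =
        pd χ i y * (w y - f y) + χ y * (pd w i y - pd f i y) := fun i => by
      rw [dvec, Local.pd_congr hc.isOpen (hKO hy) (g := fun z => χ z * (w z - f z)) (fun z hz => by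
        show rd p (chi p) z * (rd p W z - rd p u z) = _
        rw [rχ z hz, rW z hz, rf z hz]) i,
        Local.pd_mul (hχ.differentiable y) (hd.differentiable y), pdd]
    simp only [hF', Fin.sum_univ_four]
    have hq : ∀ a b d e : ℝ, |a| ≤ M → |b| ≤ M →
        (a * d + b * e) ^ 2 ≤ 2 * M ^ 2 * (d ^ 2 + e ^ 2) := fun a b d e ha hb => by
      have h1 : a ^ 2 ≤ M ^ 2 := sq_abs a ▸ pow_le_pow_left₀ (abs_nonneg a) ha 2
      have h2 : b ^ 2 ≤ M ^ 2 := sq_abs b ▸ pow_le_pow_left₀ (abs_nonneg b) hb 2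
      nlinarith [sq_nonneg (a * d - b * e), mul_le_mul_of_nonneg_right h1 (sq_nonneg d),
        mul_le_mul_of_nonneg_right h2 (sq_nonneg e)]
    have := hq _ _ (w y - f y) (pd w 0 y - pd f 0 y) (bp 0 y) (bχ y)
    have := hq _ _ (w y - f y) (pd w 1 y - pd f 1 y) (bp 1 y) (bχ y)
    have := hq _ _ (w y - f y) (pd w 2 y - pd f 2 y) (bp 2 y) (bχ y)
    have := hq _ _ (w y - f y) (pd w 3 y - pd f 3 y) (bp 3 y) (bχ y)
    linarith
  rw [mul_assoc]
  refine mul_le_mul_of_nonneg_left ?_ hC0'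
  have ir : IntegrableOn (fun y => 4 * M * (2 * M ^ 2 * (4 * (w y - f y) ^ 2 +
      ∑ i, (pd w i y - pd f i y) ^ 2))) K :=
    (((i0.const_mul 4).add is).const_mul _).const_mul _
  refine (setIntegral_mono_on (((continuousOn_rd (continuous_ip h hF hF) p).mono
    hKT).integrableOn_compact hKc) ir hKc.measurableSet hmono).trans ?_
  rw [integral_const_mul, integral_const_mul, integral_add (i0.const_mul 4) is, integral_const_mul]
  have n0 : 0 ≤ ∫ y in K, ∑ i, (pd w i y - pd f i y) ^ 2 :=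
    integral_nonneg fun y => Finset.sum_nonneg fun i _ => sq_nonneg _
  nlinarith [mul_nonneg (pow_nonneg hM0 3) n0]

include h in
theorem exists_piece_residual : ∃ C, 0 ≤ C ∧ ∀ u k w, Smooth u → Continuous k → Cs w →
    ∫ x, ((hess h (fun z => chi p z * lift p θ w z) x).trace - bracket h p u k x) ^ 2 ∂vol G ≤
      C * ((∫ y in chartAt Euc4 p '' tsupport (chi p),
          (dv (coefA G p θ) w y - locD G p θ k y) ^ 2) +
        (∫ y in chartAt Euc4 p '' tsupport (chi p), (w y - loc p θ u y) ^ 2) +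
        ∫ y in chartAt Euc4 p '' tsupport (chi p), ∑ i, (pd w i y - pd (loc p θ u) i y) ^ 2) := by
  set K := chartAt Euc4 p '' tsupport (chi p) with hKdef
  have hKc : IsCompact K := isCompact_chart_tsupport p
  have hKO : K ⊆ O := hc.cover
  have hKT : K ⊆ (chartAt Euc4 p).target := hKO.trans hc.sub
  set χ := loc p θ (chi p) with hχdef
  have hχ : Cs χ := cs_loc hc.cs hc.ts (smooth_chi p)
  obtain ⟨C0, hC0', H0⟩ := integral_le_chart h p (isClosed_tsupport (chi p)).isCompact (chi_tsupport p)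
  have hzero : ∀ x, x ∉ tsupport (chi p) → chi p =ᶠ[𝓝 x] 0 :=
    fun x hx => notMem_tsupport_iff_eventuallyEq.1 hx
  set A := coefA G p θ with hAdef
  have hA : ∀ i j, Cs (A i j) := cs_coefA h hc.cs hc.ts
  obtain ⟨D1, hD1⟩ := hKc.exists_bound_of_continuousOn (f := fun y => (dens G p y)⁻¹)
    (((smooth_dens h p).continuousOn.mono hKT).inv₀ fun y hy => (dens_pos h (hKT hy)).ne')
  obtain ⟨M, hM0, hM⟩ := exists_bound (ι := Unit ⊕ Unit ⊕ (Fin 4 × Fin 4 × Fin 4))
    (F := Sum.elim (fun _ => χ) (Sum.elim (fun _ => dv A χ)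
      fun t y => A t.1 t.2.1 y * pd χ t.2.2 y)) (by
    rintro (_ | _ | t)
    · exact hχ.cc
    · exact cc_dv hA hχ
    · exact Cc.mul (hA _ _).1.continuous (hχ.pd _).cc)
  have bχ : ∀ y, |χ y| ≤ M := hM (Sum.inl ())
  have bdv : ∀ y, |dv A χ y| ≤ M := hM (Sum.inr (Sum.inl ()))
  have bA : ∀ i j l y, |A i j y * pd χ l y| ≤ M := fun i j l => hM (Sum.inr (Sum.inr (i, j, l)))
  set D := max D1 0 ^ 2 with hDdef
  refine ⟨C0 * (D * (768 * M ^ 2)), by positivity, fun u k w hu hk hw => ?_⟩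
  set f := loc p θ u with hfdef
  have hf : Cs f := cs_loc hc.cs hc.ts hu
  set W := lift p θ w with hWdef
  have hW : Smooth W := hc.smooth_lift hw
  have rW : ∀ y ∈ O, rd p W y = w y := fun y hy => hc.rd_lift hy
  have rχ : ∀ y ∈ O, rd p (chi p) y = χ y := fun y hy => hc.rd_loc hy
  have rf : ∀ y ∈ O, rd p u y = f y := fun y hy => hc.rd_loc hy
  set g := locD G p θ k with hgdef
  have hd : Cs fun y => w y - f y := hw.sub hf
  have pdd : ∀ i y, pd (fun z => w z - f z) i y = pd w i y - pd f i y := fun i y =>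
    Local.pd_sub (hw.differentiable y) (hf.differentiable y) i
  have i0 : IntegrableOn (fun y => (w y - f y) ^ 2) K := hd.cc.sq.integrable.integrableOn
  have is : IntegrableOn (fun y => ∑ i, (pd w i y - pd f i y) ^ 2) K :=
    integrable_finsetSum _ fun i _ =>
      ((hw.pd i).cc.sub (hf.pd i).cc).sq.integrable.integrableOn
  set E := fun x => (hess h (fun z => chi p z * W z) x).trace - bracket h p u k x
  have hcW : Smooth fun z => chi p z * W z := (smooth_chi p).mul hW
  have hEc : Continuous E := (continuous_trace_hess h hcW).sub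
    ((((chi_continuous p).mul hk).add (hu.continuous.mul
      (continuous_trace_hess h (smooth_chi p)))).add
      (continuous_const.mul (continuous_ip h (smooth_chi p) hu)))
  refine (H0 (fun x => E x ^ 2) (hEc.pow 2) (fun x => sq_nonneg _) fun x hx => ?_).trans ?_
  · have h1 : (fun z => chi p z * W z) =ᶠ[𝓝 x] 0 := by
      filter_upwards [hzero x hx] with z hz; simp [hz]
    simp [E, bracket, hess_eq_zero h h1, hess_eq_zero h (hzero x hx),
      grad_eq_zero h (hzero x hx), (hzero x hx).eq_of_nhds]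
  have hmono : ∀ y ∈ K, rd p (fun x => E x ^ 2) y ≤ D * (3 * M ^ 2 *
      ((dv A w y - g y) ^ 2) + 3 * M ^ 2 * (w y - f y) ^ 2 +
      768 * M ^ 2 * ∑ i, (pd w i y - pd f i y) ^ 2) := by
    intro y hy
    have hyO := hKO hy
    have hyT := hKT hy
    have e1 : rd p (fun x => (hess h (fun z => chi p z * W z) x).trace) y =
        Local.lap (G p) (rd p fun z => chi p z * W z) y := rd_trace_hess h p hcW hyT
    have d1 := dens_mul_lap h hc.isOpen hc.sub hc.one (hcW p) (g := fun z => χ z * w z) (fun z hz => by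
      show _ = rd p (chi p) z * rd p W z
      rw [rχ z hz, rW z hz]) hyO
    have d2 := dens_mul_lap h hc.isOpen hc.sub hc.one (smooth_chi p p) (g := χ)
      (fun z hz => (rχ z hz).symm) hyO
    have e2 := rd_trace_hess h p (smooth_chi p) hyT
    have hip : ∀ {a b : X → ℝ}, Smooth a → Smooth b → ∀ {a' b' : Euc4 → ℝ},
        (∀ z ∈ O, rd p a z = a' z) → (∀ z ∈ O, rd p b z = b' z) →
        dens G p y * rd p (fun x => grad h a x ⬝ᵥ grad h b x) y =
          ∑ i, ∑ j, A i j y * (pd a' i y * pd b' j y) := by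
      intro a b ha hb a' b' ra rb
      rw [rd_ip h p ha hb hyT]
      simp only [dotProduct, mulVec, dvec, Finset.mul_sum, A, coefA, hc.one y hyO, one_mul,
        Local.pd_congr hc.isOpen hyO ra, Local.pd_congr hc.isOpen hyO rb]
      exact Finset.sum_congr rfl fun i _ => Finset.sum_congr rfl fun j _ => by ring
    have e3 : rd p (fun x => grad h (chi p) x ⬝ᵥ grad h u x) y =
        rd p (fun x => grad h u x ⬝ᵥ grad h (chi p) x) y := dotProduct_comm _ _
    have e4 := hip (smooth_chi p) (hu) rχ rf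
    have e5 := hip (hu) (smooth_chi p) rf rχ
    rw [← e3] at e5
    have e6 : g y = dens G p y * rd p k y := by simp [g, locD, hc.one y hyO]
    have key : dens G p y * rd p E y = χ y * (dv A w y - g y) + (w y - f y) * dv A χ y +
        ∑ i, ∑ j, A i j y * (pd χ j y * (pd w i y - pd f i y) +
          pd χ i y * (pd w j y - pd f j y)) := by
      have hsum : ∑ i, ∑ j, A i j y * (pd χ j y * (pd w i y - pd f i y) +
          pd χ i y * (pd w j y - pd f j y)) =
          (∑ i, ∑ j, A i j y * (pd χ j y * pd w i y + pd χ i y * pd w j y)) -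
            (∑ i, ∑ j, A i j y * (pd f i y * pd χ j y)) -
            ∑ i, ∑ j, A i j y * (pd χ i y * pd f j y) := by
        simp only [← Finset.sum_sub_distrib]
        exact Finset.sum_congr rfl fun i _ => Finset.sum_congr rfl fun j _ => by ring
      show dens G p y * (rd p (fun x => (hess h (fun z => chi p z * W z) x).trace) y -
        (rd p (chi p) y * rd p k y + rd p u y *
          rd p (fun x => (hess h (chi p) x).trace) y +
          2 * rd p (fun x => grad h (chi p) x ⬝ᵥ grad h u x) y)) = _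
      rw [hsum, e1, e2, rχ y hyO, rf y hyO, e6, ← e4, ← e5]
      have := dv_mul hA hχ hw y
      linear_combination (-1 : ℝ) * d1 + this + f y * d2
    have hbd : (dens G p y * rd p E y) ^ 2 ≤ 3 * M ^ 2 * ((dv A w y - g y) ^ 2) +
        3 * M ^ 2 * (w y - f y) ^ 2 +
        768 * M ^ 2 * ∑ i, (pd w i y - pd f i y) ^ 2 := by
      rw [key]
      refine three_sq_le.trans ?_
      have h1 : χ y ^ 2 ≤ M ^ 2 := sq_abs (χ y) ▸ pow_le_pow_left₀ (abs_nonneg _) (bχ y) 2
      have h2 : dv A χ y ^ 2 ≤ M ^ 2 :=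
        sq_abs (dv A χ y) ▸ pow_le_pow_left₀ (abs_nonneg _) (bdv y) 2
      have h3 := sum_cross_sq_le (fun i j => A i j y) (fun i => pd χ i y)
        (fun i => pd w i y - pd f i y) (fun i j l => bA i j l y)
      nlinarith [mul_le_mul_of_nonneg_right h1 (sq_nonneg (dv A w y - g y)),
        mul_le_mul_of_nonneg_left h2 (sq_nonneg (w y - f y))]
    have hρ := dens_pos h hyT
    have hle : (dens G p y)⁻¹ ^ 2 ≤ D :=
      pow_le_pow_left₀ (by positivity)
        (((le_abs_self _).trans (hD1 y hy)).trans (le_max_left _ _)) 2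
    calc rd p (fun x => E x ^ 2) y = (dens G p y)⁻¹ ^ 2 * (dens G p y * rd p E y) ^ 2 := by
          show rd p E y ^ 2 = _
          field_simp
      _ ≤ _ := mul_le_mul hle hbd (sq_nonneg _) (sq_nonneg _)
  have cdv : Continuous fun y => dv A w y - g y :=
    (cc_dv hA hw).1.sub (cc_locD h hc.cs hc.ts hk).1
  have j1 : IntegrableOn (fun y => (dv A w y - g y) ^ 2) K :=
    (cdv.pow 2).continuousOn.integrableOn_compact hKc
  have j12 : IntegrableOn (fun y => 3 * M ^ 2 * ((dv A w y - g y) ^ 2) +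
      3 * M ^ 2 * (w y - f y) ^ 2) K := (j1.const_mul _).add (i0.const_mul _)
  rw [mul_assoc]
  refine mul_le_mul_of_nonneg_left ?_ hC0'
  refine (setIntegral_mono_on (((continuousOn_rd (hEc.pow 2) p).mono
    hKT).integrableOn_compact hKc) ((j12.add (is.const_mul _)).const_mul D)
    hKc.measurableSet hmono).trans ?_
  simp only [Pi.add_apply]
  rw [integral_const_mul, integral_add j12 (is.const_mul _),
    integral_add (j1.const_mul _) (i0.const_mul _), integral_const_mul, integral_const_mul,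
    integral_const_mul, mul_assoc D]
  refine mul_le_mul_of_nonneg_left ?_ (sq_nonneg _)
  have n1 : 0 ≤ ∫ y in K, (dv A w y - g y) ^ 2 := integral_nonneg fun y => sq_nonneg _
  have n2 : 0 ≤ ∫ y in K, (w y - f y) ^ 2 := integral_nonneg fun y => sq_nonneg _
  nlinarith [mul_nonneg (sq_nonneg M) n1, mul_nonneg (sq_nonneg M) n2]

omit hc in
/-- A uniform radius within which the band moves by less than `ε`. -/
theorem exists_band_radius (hc : IsCut p θ O) {lo hi : X → ℝ} (hlo : Continuous lo)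
    (hhi : Continuous hi) {ε : ℝ} (hε : 0 < ε) :
    ∃ δ > 0, ∀ s, 0 < s → s < δ → ∀ u : X → ℝ, Smooth u → (∀ x, lo x ≤ u x ∧ u x ≤ hi x) →
      ∀ x, chi p x ≠ 0 → lo x - ε ≤ lift p θ (conv (ker s) (loc p θ u)) x ∧
        lift p θ (conv (ker s) (loc p θ u)) x ≤ hi x + ε := by
  set c := chartAt Euc4 p
  have hl := cc_cut hc.cs.cc c.open_target hc.ts (continuousOn_rd hlo p)
  have hh := cc_cut hc.cs.cc c.open_target hc.ts (continuousOn_rd hhi p)
  obtain ⟨δl, hδl, ul⟩ := uniformContinuous_iff.1 (hl.2.uniformContinuous_of_continuous hl.1) ε hε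
  obtain ⟨δh, hδh, uh⟩ := uniformContinuous_iff.1 (hh.2.uniformContinuous_of_continuous hh.1) ε hε
  obtain ⟨δ, hδ, hδO⟩ := (isCompact_chart_tsupport p).exists_cthickening_subset_open hc.isOpen
    hc.cover
  refine ⟨min δ (min δl δh), lt_min hδ (lt_min hδl hδh), fun s hs hlt u hu hband x hx => ?_⟩
  simp only [lt_min_iff] at hlt
  obtain ⟨s1, s2, s3⟩ := hlt
  set y := c x with hydef
  have hxK : x ∈ tsupport (chi p) := subset_tsupport _ hx
  have hy : y ∈ c '' tsupport (chi p) := ⟨x, hxK, rfl⟩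
  have hsymm : c.symm y = x := c.left_inv (chi_tsupport p hxK)
  have hxW : lift p θ (conv (ker s) (loc p θ u)) x = conv (ker s) (loc p θ u) y := by
    have := hc.rd_lift (w := conv (ker s) (loc p θ u)) (hc.cover hy)
    rwa [rd, hsymm] at this
  have := Mollify.conv_ker_mem hs (f := loc p θ u) (cs_loc hc.cs hc.ts hu).1.continuous (x := y)
    (l := lo x - ε) (u := hi x + ε) (by linarith [(hband x).1, (hband x).2]) fun z hz => by
      have hzO : z ∈ O := hδO (mem_cthickening_of_dist_le z y δ _ hy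
        ((mem_ball.1 hz).le.trans s1.le))
      have h1 : |rd p lo z - rd p lo y| < ε := by
        have := ul (lt_trans (mem_ball.1 hz) s2)
        simpa [Real.dist_eq, hc.one z hzO, hc.one y (hc.cover hy)] using this
      have h2 : |rd p hi z - rd p hi y| < ε := by
        have := uh (lt_trans (mem_ball.1 hz) s3)
        simpa [Real.dist_eq, hc.one z hzO, hc.one y (hc.cover hy)] using this
      rw [← hc.rd_loc hzO]
      simp only [rd] at h1 h2 ⊢
      have e : (chartAt Euc4 p).symm y = x := hsymm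
      rw [e] at h1 h2
      obtain ⟨a1, a2⟩ := abs_lt.1 h1
      obtain ⟨a3, a4⟩ := abs_lt.1 h2
      have hb := hband ((chartAt Euc4 p).symm z)
      exact ⟨by linarith [hb.1], by linarith [hb.2]⟩
  rw [hxW]
  exact ⟨this.1, this.2⟩

omit hc in
theorem exists_piece (p : X) {u k : ℕ → X → ℝ} {lo hi : X → ℝ} {e : ℕ → ℝ}
    (hu : ∀ m, Smooth (u m)) (hk : ∀ m, Continuous (k m)) (hlo : Continuous lo)
    (hhi : Continuous hi) (hband : ∀ m x, lo x ≤ u m x ∧ u m x ≤ hi x)
    (hC0 : ∀ ε > 0, ∃ N, ∀ m ≥ N, ∀ n ≥ N, ∫ x, (u m x - u n x) ^ 2 ∂vol G < ε)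
    (hC1 : ∀ ε > 0, ∃ N, ∀ m ≥ N, ∀ n ≥ N, ∫ x, gsq h (fun z => u m z - u n z) x ∂vol G < ε)
    (hC2 : ∀ ε > 0, ∃ N, ∀ m ≥ N, ∀ n ≥ N, ∫ x, (k m x - k n x) ^ 2 ∂vol G < ε)
    (he : Filter.Tendsto e Filter.atTop (𝓝 0))
    (hres : ∀ m Φ, Smooth Φ → |∫ x, (grad h (u m) x ⬝ᵥ grad h Φ x + k m x * Φ x) ∂vol G| ≤
      e m * √(∫ x, (Φ x ^ 2 + grad h Φ x ⬝ᵥ grad h Φ x) ∂vol G))
    {ε : ℝ} (hε : 0 < ε) :
    ∃ N, ∀ m ≥ N, ∃ W : X → ℝ, Smooth W ∧
      ∫ x, (chi p x * (W x - u m x)) ^ 2 ∂vol G < ε ∧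
      ∫ x, gsq h (fun z => chi p z * (W z - u m z)) x ∂vol G < ε ∧
      ∫ x, ((hess h (fun z => chi p z * W z) x).trace - bracket h p (u m) (k m) x) ^ 2 ∂vol G < ε ∧
      ∀ x, chi p x ≠ 0 → lo x - ε ≤ W x ∧ W x ≤ hi x + ε := by
  obtain ⟨θ, O, hc⟩ := IsCut.exists p
  obtain ⟨Cl, hCl, L0, L1, L2⟩ := exists_loc_bound h p hc.cs hc.ts
  obtain ⟨Cr, hCr, R⟩ := residual_chart h hc.cs hc.ts hc.isOpen hc.sub hc.one
  obtain ⟨Ca, hCa, Ha⟩ := exists_piece_l2 h hc
  obtain ⟨Cb, hCb, Hb⟩ := exists_piece_energy h hc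
  obtain ⟨Ce, hCe, He⟩ := exists_piece_residual h hc
  have hf : ∀ m, Cs (loc p θ (u m)) := fun m => cs_loc hc.cs hc.ts (hu m)
  have hC0f : ∀ δ > 0, ∃ N, ∀ m ≥ N, ∀ n ≥ N,
      ∫ y, (loc p θ (u m) y - loc p θ (u n) y) ^ 2 < δ := fun δ hδ => by
    obtain ⟨N, hN⟩ := tendsto_cauchy hCl hC0 hδ
    refine ⟨N, fun m hm n hn => lt_of_le_of_lt ?_ (hN m hm n hn)⟩
    refine le_trans (le_of_eq ?_) (L0 (fun z => u m z - u n z) ((hu m).sub (hu n)))
    refine integral_congr_ae (Filter.Eventually.of_forall fun y => ?_)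
    simp [loc, rd]; ring
  have hC1f : ∀ δ > 0, ∃ N, ∀ m ≥ N, ∀ n ≥ N, ∀ i,
      ∫ y, (pd (loc p θ (u m)) i y - pd (loc p θ (u n)) i y) ^ 2 < δ := fun δ hδ => by
    obtain ⟨N, hN⟩ := tendsto_cauchy hCl hC0 (half_pos hδ)
    obtain ⟨N', hN'⟩ := tendsto_cauchy hCl hC1 (half_pos hδ)
    refine ⟨max N N', fun m hm n hn i => ?_⟩
    have h1 := hN m (le_of_max_le_left hm) n (le_of_max_le_left hn)
    have h2 := hN' m (le_of_max_le_right hm) n (le_of_max_le_right hn)
    have h3 := L1 (fun z => u m z - u n z) ((hu m).sub (hu n)) i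
    have e : ∀ y, pd (loc p θ fun z => u m z - u n z) i y =
        pd (loc p θ (u m)) i y - pd (loc p θ (u n)) i y := by
      intro y
      rw [show (loc p θ fun z => u m z - u n z) = fun y => loc p θ (u m) y - loc p θ (u n) y from
        funext fun y => by simp [loc, rd]; ring]
      exact Local.pd_sub ((hf m).differentiable y) ((hf n).differentiable y) i
    simp_rw [e] at h3
    rw [mul_add] at h3
    linarith
  have hC2f : ∀ δ > 0, ∃ N, ∀ m ≥ N, ∀ n ≥ N,
      ∫ y, (locD G p θ (k m) y - locD G p θ (k n) y) ^ 2 < δ := fun δ hδ => by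
    obtain ⟨N, hN⟩ := tendsto_cauchy hCl hC2 hδ
    refine ⟨N, fun m hm n hn => lt_of_le_of_lt ?_ (hN m hm n hn)⟩
    refine le_trans (le_of_eq ?_) (L2 (fun z => k m z - k n z) ((hk m).sub (hk n)))
    refine integral_congr_ae (Filter.Eventually.of_forall fun y => ?_)
    simp [locD, rd]; ring
  have he' : Filter.Tendsto (fun m => |e m| * Cr) Filter.atTop (𝓝 0) := by
    simpa using he.abs.mul_const Cr
  set δ := ε / (Ca + 5 * Cb + 6 * Ce + 1) with hδdef
  have hden : 0 < Ca + 5 * Cb + 6 * Ce + 1 := by positivity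
  have hδ : 0 < δ := by positivity
  have hδε : (Ca + 5 * Cb + 6 * Ce + 1) * δ = ε := by rw [hδdef]; field_simp
  obtain ⟨h₁, hh₁, H⟩ := Mollify.exists_smoothing (cs_coefA h hc.cs hc.ts)
    (isCompact_chart_tsupport p) hc.isOpen hc.cover hf
    (fun m => cc_locD h hc.cs hc.ts (hk m)) hC0f hC1f hC2f he'
    (fun m φ hφ hφO => R (u m) (k m) (e m) (hu m) (hk m) (hres m) φ hφ hφO) hδ
  obtain ⟨r, hr, Hband⟩ := exists_band_radius hc hlo hhi hε
  have hmin : 0 < min h₁ r := lt_min hh₁ hr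
  obtain ⟨N, hN⟩ := H (min h₁ r / 2) (half_pos hmin)
    ((half_lt_self hmin).trans_le (min_le_left _ _))
  refine ⟨N, fun m hm => ?_⟩
  obtain ⟨b0, b1, b2⟩ := hN m hm
  set s := min h₁ r / 2
  set w := conv (ker s) (loc p θ (u m))
  have hw : Cs w := Mollify.cs_conv (Mollify.cs_ker (half_pos hmin)).cc (hf m)
  set K := chartAt Euc4 p '' tsupport (chi p)
  have I0 : ∫ y in K, (w y - loc p θ (u m) y) ^ 2 ≤ δ :=
    ((Mollify.setIntegral_le_all (hw.sub (hf m)).cc K).trans b0.le)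
  have Is : ∫ y in K, ∑ i, (pd w i y - pd (loc p θ (u m)) i y) ^ 2 ≤ 4 * δ := by
    have i1 : ∀ i, IntegrableOn (fun y => (pd w i y - pd (loc p θ (u m)) i y) ^ 2) K := fun i =>
      ((hw.pd i).cc.sub ((hf m).pd i).cc).sq.integrable.integrableOn
    rw [integral_finsetSum _ fun i _ => i1 i]
    have := fun i => (Mollify.setIntegral_le_all ((hw.pd i).cc.sub ((hf m).pd i).cc) K).trans
      (b1 i).le
    simp only [Fin.sum_univ_four]
    linarith [this 0, this 1, this 2, this 3]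
  have I2 : ∫ y in K, (dv (coefA G p θ) w y - locD G p θ (k m) y) ^ 2 ≤ δ := b2.le
  refine ⟨lift p θ w, hc.smooth_lift hw, ?_, ?_, ?_,
    fun x hx => Hband s (half_pos hmin) ((half_lt_self hmin).trans_le (min_le_right _ _)) (u m)
      (hu m) (hband m) x hx⟩
  · refine lt_of_le_of_lt ((Ha (u m) w (hu m) hw).trans (mul_le_mul_of_nonneg_left I0 hCa)) ?_
    nlinarith
  · refine lt_of_le_of_lt ((Hb (u m) w (hu m) hw).trans
      (mul_le_mul_of_nonneg_left (add_le_add I0 Is) hCb)) ?_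
    nlinarith
  · refine lt_of_le_of_lt ((He (u m) (k m) w (hu m) (hk m) hw).trans
      (mul_le_mul_of_nonneg_left (add_le_add (add_le_add I2 I0) Is) hCe)) ?_
    nlinarith

end

end Vale.Agent.P211.Global
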